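import Vale.Agent.Lib.P047.Upper.Uniform

/-!
# P047: from the level-one sum to the sum of absolute values

Flipping the signs of some coordinates preserves the degree and Booleanness and turns the
level-one sum into the sum of the absolute values of the level-one coefficients.
-/

namespace Vale.Agent.Lib.P047

open Finset

lemma exists_twist_abs {n : ℕ} (f : (Fin n → Bool) → ℝ) :
    ∃ y : Fin n → Bool, levelOne (twist y f) = ∑ i : Fin n, |fourier f {i}| := by
  classical
  refine ⟨fun i => decide (fourier f {i} < 0), ?_⟩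
  rw [levelOne_twist]
  refine Finset.sum_congr rfl fun i _ => ?_
  by_cases h : fourier f {i} < 0
  · simp [sgn, h, abs_of_neg h]
  · simp [sgn, h, abs_of_nonneg (not_lt.mp h)]

/-- `∑_i |f^(i)| ≤ (973/1000) d` for Boolean `f` of degree at most `d ≥ 2`. -/
theorem sum_abs_le_973 {n d : ℕ} (f : (Fin n → Bool) → ℝ) (hf : IsBoolean f)
    (hd : DegLE f d) (hd2 : 2 ≤ d) : ∑ i : Fin n, |fourier f {i}| ≤ 973 / 1000 * d := by
  obtain ⟨y, hy⟩ := exists_twist_abs f
  rw [← hy]
  exact levelOne_le_973 (twist y f) (isBoolean_twist y f hf) (degLE_twist y f d hd) hd2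

/-- `∑_i |f^(i)| ≤ (47/50) d` for Boolean `f` of degree at most `d ≥ 64`. -/
theorem sum_abs_le_large {n d : ℕ} (f : (Fin n → Bool) → ℝ) (hf : IsBoolean f)
    (hd : DegLE f d) (hd64 : 64 ≤ d) : ∑ i : Fin n, |fourier f {i}| ≤ 47 / 50 * d := by
  obtain ⟨y, hy⟩ := exists_twist_abs f
  rw [← hy]
  exact levelOne_le_large (twist y f) (isBoolean_twist y f hf) (degLE_twist y f d hd) hd64

/-- `∑_i |f^(i)| ≤ d - 1` for Boolean `f` of even degree bound `d ≥ 2`. -/
theorem sum_abs_le_even {n d : ℕ} (f : (Fin n → Bool) → ℝ) (hf : IsBoolean f)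
    (hd : DegLE f d) (he : Even d) (hd2 : 2 ≤ d) :
    ∑ i : Fin n, |fourier f {i}| ≤ (d : ℝ) - 1 := by
  obtain ⟨y, hy⟩ := exists_twist_abs f
  rw [← hy]
  obtain ⟨k, hk⟩ := he
  have hm : Odd (d - 1) := ⟨k - 1, by omega⟩
  have h := levelOne_le_m (m := d - 1) (twist y f) (isBoolean_twist y f hf)
    (degLE_twist y f d hd) (by omega) hm (by omega)
  have hc : ((d - 1 : ℕ) : ℝ) = (d : ℝ) - 1 := by
    rw [Nat.cast_sub (by omega)]
    simp
  rw [hc] at h
  exact h

/-- The differential inequality of the bias polynomial, written out with explicit sums. -/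
theorem bias_ode_sums {n d : ℕ} (f : (Fin n → Bool) → ℝ) (hf : IsBoolean f) (hd : DegLE f d)
    (t : ℝ) (ht0 : 0 ≤ t) (ht1 : t ≤ 1) :
    (1 - t) * |∑ S : Finset (Fin n), fourier f S * ((S.card : ℝ) * t ^ (S.card - 1))|
      ≤ d * (1 - (∑ S : Finset (Fin n), fourier f S * t ^ S.card) ^ 2) := by
  have h := bias_ode f hf hd t ht0 ht1
  rw [biasPoly_derivative_eval, biasPoly_eval] at h
  exact h

end Vale.Agent.Lib.P047
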