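import Mathlib

/-!
# Bernstein at the centre with a gain from one Chebyshev node

An odd polynomial `Q(x) = x r(x^2)` of degree at most `m` that is bounded by one on `[0,1]`
satisfies `Q'(0)^2 = r(0)^2 ≤ m^2`, with a quantitative gain when `|Q|` is below one at
`sin (π / (2 m))`. The proof is Lagrange interpolation at the Chebyshev nodes applied to
`P(y) = 1 - (1 - y) r((1 - y) / 2)^2`.
-/

open Polynomial

namespace Vale.Agent.Lib.P047.Upper

/-- The Lagrange weight of the `i`-th Chebyshev node for the derivative at `1`. -/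
noncomputable def cheb_c (m i : ℕ) : ℝ :=
  (∏ j ∈ (Finset.range (m + 1)).erase i,
      (Polynomial.Chebyshev.node m i - Polynomial.Chebyshev.node m j))⁻¹ *
    ∑ t ∈ ((Finset.range (m + 1)).erase i).powersetCard (m - 1),
      ∏ a ∈ t, (1 - Polynomial.Chebyshev.node m a)

/-- The derivative at `1` of a polynomial of degree at most `m` in terms of its values at the
Chebyshev nodes. -/
theorem cheb_deriv_eq_sum {m : ℕ} (hm : 1 ≤ m) {P : ℝ[X]} (hP : P.degree ≤ m) :
    (derivative P).eval 1 =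
      ∑ i ∈ Finset.range (m + 1), P.eval (Polynomial.Chebyshev.node m i) * cheb_c m i := by
  have h1 : P.degree < ((Finset.range (m + 1)).card : WithBot ℕ) := by
    rw [Finset.card_range]
    exact lt_of_le_of_lt hP (by exact_mod_cast Nat.lt_succ_self m)
  have h2 : 1 < (Finset.range (m + 1)).card := by
    rw [Finset.card_range]
    omega
  have h := Lagrange.eval_iterate_derivative_eq_sum
    (Polynomial.Chebyshev.strictAntiOn_node m).injOn h1 h2 (1 : ℝ)
  rw [Function.iterate_one, Nat.factorial_one, Nat.cast_one, one_mul, Finset.card_range] at h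
  rw [h]
  apply Finset.sum_congr rfl
  intro i _
  unfold cheb_c
  have h3 : m + 1 - (1 + 1) = m - 1 := by omega
  rw [h3, div_eq_mul_inv, mul_assoc]

/-- The weights alternate in sign. -/
theorem cheb_c_sign {m i : ℕ} (hi : i ≤ m) : 0 ≤ (-1 : ℝ) ^ i * cheb_c m i := by
  unfold cheb_c
  rw [← mul_assoc]
  apply mul_nonneg
  · have h := inv_pos_of_pos (Polynomial.Chebyshev.zero_lt_prod_node_sub_node hi)
    rw [mul_inv, ← inv_pow, inv_neg_one] at h
    exact le_of_lt h
  · apply Finset.sum_nonneg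
    intro t _
    apply Finset.prod_nonneg
    intro a _
    have h1 : Polynomial.Chebyshev.node m a ≤ 1 := Real.cos_le_one _
    linarith

/-- The signed weights add up to `m ^ 2`, the derivative of the Chebyshev polynomial at `1`. -/
theorem cheb_sum_c {m : ℕ} (hm : 1 ≤ m) :
    ∑ i ∈ Finset.range (m + 1), (-1 : ℝ) ^ i * cheb_c m i = (m : ℝ) ^ 2 := by
  have hdeg : (Polynomial.Chebyshev.T ℝ (m : ℤ)).degree ≤ m := by
    rw [Polynomial.Chebyshev.degree_T]
    simp
  have h := cheb_deriv_eq_sum hm hdeg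
  rw [Polynomial.Chebyshev.derivative_T_eval_one] at h
  have h2 : ∑ i ∈ Finset.range (m + 1),
      (Polynomial.Chebyshev.T ℝ (m : ℤ)).eval (Polynomial.Chebyshev.node m i) * cheb_c m i
      = ∑ i ∈ Finset.range (m + 1), (-1 : ℝ) ^ i * cheb_c m i := by
    apply Finset.sum_congr rfl
    intro i hi
    rw [Polynomial.Chebyshev.eval_T_real_node
      (Finset.mem_Iic.2 (Nat.lt_succ_iff.1 (Finset.mem_range.1 hi)))]
  rw [← h2, ← h]
  push_cast
  ring

/-- The weight of the first node is at least `1 / (1 - y_1)` in absolute value. -/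
theorem cheb_c_one {m : ℕ} (hm : 1 ≤ m) :
    1 / (1 - Polynomial.Chebyshev.node m 1) ≤ (-1 : ℝ) ^ 1 * cheb_c m 1 := by
  have hy0 : Polynomial.Chebyshev.node m 0 = 1 := Polynomial.Chebyshev.node_eq_one
  have hy1 : Polynomial.Chebyshev.node m 1 < 1 := by
    rw [← hy0]
    exact Polynomial.Chebyshev.node_lt hm Nat.zero_lt_one
  have hle : ∀ a, Polynomial.Chebyshev.node m a ≤ 1 := fun a => Real.cos_le_one _
  have hS : (Finset.range (m + 1)).erase 1 = insert 0 (Finset.Ioc 1 m) := by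
    ext a
    simp only [Finset.mem_erase, Finset.mem_range, Finset.mem_insert, Finset.mem_Ioc]
    omega
  have h0 : 0 ∉ Finset.Ioc 1 m := by simp
  have hpos : ∀ j ∈ Finset.Ioc 1 m,
      0 < Polynomial.Chebyshev.node m 1 - Polynomial.Chebyshev.node m j := by
    intro j hj
    exact sub_pos.2 (Polynomial.Chebyshev.node_lt (Finset.mem_Ioc.1 hj).2 (Finset.mem_Ioc.1 hj).1)
  have hDpos : 0 < ∏ j ∈ Finset.Ioc 1 m,
      (Polynomial.Chebyshev.node m 1 - Polynomial.Chebyshev.node m j) :=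
    Finset.prod_pos hpos
  have hprod : ∏ j ∈ (Finset.range (m + 1)).erase 1,
      (Polynomial.Chebyshev.node m 1 - Polynomial.Chebyshev.node m j)
      = -((1 - Polynomial.Chebyshev.node m 1) * ∏ j ∈ Finset.Ioc 1 m,
          (Polynomial.Chebyshev.node m 1 - Polynomial.Chebyshev.node m j)) := by
    rw [hS, Finset.prod_insert h0, hy0]
    ring
  have hDN : ∏ j ∈ Finset.Ioc 1 m,
      (Polynomial.Chebyshev.node m 1 - Polynomial.Chebyshev.node m j)
      ≤ ∏ a ∈ Finset.Ioc 1 m, (1 - Polynomial.Chebyshev.node m a) := by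
    apply Finset.prod_le_prod
    · intro j hj
      exact le_of_lt (hpos j hj)
    · intro j _
      linarith
  have hsum : ∏ a ∈ Finset.Ioc 1 m, (1 - Polynomial.Chebyshev.node m a)
      ≤ ∑ t ∈ ((Finset.range (m + 1)).erase 1).powersetCard (m - 1),
        ∏ a ∈ t, (1 - Polynomial.Chebyshev.node m a) := by
    have hmem : Finset.Ioc 1 m ∈ ((Finset.range (m + 1)).erase 1).powersetCard (m - 1) := by
      rw [Finset.mem_powersetCard]
      refine ⟨?_, by simp⟩
      rw [hS]
      exact Finset.subset_insert _ _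
    exact Finset.single_le_sum
      (f := fun t : Finset ℕ => ∏ a ∈ t, (1 - Polynomial.Chebyshev.node m a))
      (fun t _ => Finset.prod_nonneg (fun a _ => by have := hle a; linarith)) hmem
  have h1y : 0 < 1 - Polynomial.Chebyshev.node m 1 := by linarith
  unfold cheb_c
  rw [hprod]
  have hrew : ∀ (u D S : ℝ), 0 < u → 0 < D →
      (-1 : ℝ) ^ 1 * ((-(u * D))⁻¹ * S) = S / (u * D) := by
    intro u D S hu hD
    field_simp
  rw [hrew _ _ _ h1y hDpos, div_le_div_iff₀ h1y (mul_pos h1y hDpos)]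
  nlinarith [mul_le_mul_of_nonneg_left (le_trans hDN hsum) (le_of_lt h1y)]

/-- The derivative at `1` of `1 - (1 - X) * h` is `h(1)`. -/
theorem cheb_deriv_aux (h : ℝ[X]) : (derivative (1 - (1 - X) * h)).eval 1 = h.eval 1 := by
  have h1 : derivative (1 - (1 - X) * h) = h - (1 - X) * derivative h := by
    simp only [derivative_sub, derivative_one, derivative_mul, derivative_X]
    ring
  rw [h1]
  simp

/-- The first Chebyshev node is `1 - 2 sin (π / (2 m)) ^ 2`. -/
theorem cheb_node_one {m : ℕ} (hm : 1 ≤ m) :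
    Polynomial.Chebyshev.node m 1 = 1 - 2 * (Real.sin (Real.pi / (2 * m))) ^ 2 := by
  have hm0 : (m : ℝ) ≠ 0 := by
    have : (0 : ℝ) < m := by exact_mod_cast hm
    exact ne_of_gt this
  have h1 : ((1 : ℕ) : ℝ) * Real.pi / m = 2 * (Real.pi / (2 * m)) := by
    push_cast
    field_simp
  unfold Polynomial.Chebyshev.node
  rw [h1, Real.cos_two_mul, Real.cos_sq']
  ring

/-- The interpolation inequality: a polynomial of degree at most `m` bounded by one on
`[-1, 1]` has derivative at `1` at most `m ^ 2 - (1 + P(y_1)) / (1 - y_1)`. -/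
theorem cheb_deriv_le {m : ℕ} (hm : 1 ≤ m) {P : ℝ[X]} (hP : P.degree ≤ m)
    (hPbd : ∀ y ∈ Set.Icc (-1 : ℝ) 1, |P.eval y| ≤ 1) :
    (derivative P).eval 1 ≤ (m : ℝ) ^ 2
      - (1 + P.eval (Polynomial.Chebyshev.node m 1)) / (1 - Polynomial.Chebyshev.node m 1) := by
  rw [cheb_deriv_eq_sum hm hP, ← cheb_sum_c hm]
  have hb : ∀ i, (-1 : ℝ) ^ i * P.eval (Polynomial.Chebyshev.node m i) ≤ 1 := by
    intro i
    have h1 := hPbd _ (Polynomial.Chebyshev.node_mem_Icc (n := m) (i := i))
    have h2 : |(-1 : ℝ) ^ i * P.eval (Polynomial.Chebyshev.node m i)| ≤ 1 := by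
      rw [abs_mul, abs_neg_one_pow, one_mul]
      exact h1
    exact le_of_abs_le h2
  have hsq : ∀ i : ℕ, (-1 : ℝ) ^ i * (-1 : ℝ) ^ i = 1 := by
    intro i
    rw [← mul_pow]
    norm_num
  have hterm : ∀ i ∈ Finset.range (m + 1),
      P.eval (Polynomial.Chebyshev.node m i) * cheb_c m i
        = (-1 : ℝ) ^ i * cheb_c m i
          - (1 - (-1 : ℝ) ^ i * P.eval (Polynomial.Chebyshev.node m i))
            * ((-1 : ℝ) ^ i * cheb_c m i) := by
    intro i _
    have h := hsq i
    linear_combination (- P.eval (Polynomial.Chebyshev.node m i) * cheb_c m i) * h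
  rw [Finset.sum_congr rfl hterm, Finset.sum_sub_distrib]
  have hnn : ∀ i ∈ Finset.range (m + 1),
      0 ≤ (1 - (-1 : ℝ) ^ i * P.eval (Polynomial.Chebyshev.node m i))
            * ((-1 : ℝ) ^ i * cheb_c m i) := by
    intro i hi
    apply mul_nonneg
    · have := hb i
      linarith
    · exact cheb_c_sign (Nat.lt_succ_iff.1 (Finset.mem_range.1 hi))
  have h1mem : 1 ∈ Finset.range (m + 1) := Finset.mem_range.2 (by omega)
  have hsingle := Finset.single_le_sum
    (f := fun i : ℕ => (1 - (-1 : ℝ) ^ i * P.eval (Polynomial.Chebyshev.node m i))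
            * ((-1 : ℝ) ^ i * cheb_c m i)) hnn h1mem
  have hc1 := cheb_c_one hm
  have hy0 : Polynomial.Chebyshev.node m 0 = 1 := Polynomial.Chebyshev.node_eq_one
  have hy1 : Polynomial.Chebyshev.node m 1 < 1 := by
    rw [← hy0]
    exact Polynomial.Chebyshev.node_lt hm Nat.zero_lt_one
  have hb1 := hb 1
  have hkey : (1 + P.eval (Polynomial.Chebyshev.node m 1)) / (1 - Polynomial.Chebyshev.node m 1)
      ≤ (1 - (-1 : ℝ) ^ 1 * P.eval (Polynomial.Chebyshev.node m 1))
            * ((-1 : ℝ) ^ 1 * cheb_c m 1) := by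
    have h3 : (1 - (-1 : ℝ) ^ 1 * P.eval (Polynomial.Chebyshev.node m 1))
        = 1 + P.eval (Polynomial.Chebyshev.node m 1) := by ring
    have h4 : 0 ≤ 1 + P.eval (Polynomial.Chebyshev.node m 1) := by
      rw [← h3]
      linarith
    rw [h3, div_eq_mul_one_div]
    exact mul_le_mul_of_nonneg_left hc1 h4
  linarith

theorem cheb_center_bound (m : ℕ) (r : ℝ[X]) (hr : 2 * r.natDegree + 1 ≤ m)
    (hbd : ∀ x : ℝ, 0 ≤ x → x ≤ 1 → |x * r.eval (x ^ 2)| ≤ 1) :
    (r.eval 0) ^ 2 ≤ (m : ℝ) ^ 2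
      - (1 - (Real.sin (Real.pi / (2 * m)) * r.eval ((Real.sin (Real.pi / (2 * m))) ^ 2)) ^ 2)
        / (Real.sin (Real.pi / (2 * m))) ^ 2 := by
  have hm : 1 ≤ m := by omega
  obtain ⟨g, hg⟩ : ∃ g : ℝ[X], g = r.comp (C (1 / 2) * (1 - X)) := ⟨_, rfl⟩
  obtain ⟨P, hPdef⟩ : ∃ P : ℝ[X], P = 1 - (1 - X) * g ^ 2 := ⟨_, rfl⟩
  have hgeval : ∀ y : ℝ, g.eval y = r.eval ((1 - y) / 2) := by
    intro y
    rw [hg, eval_comp]
    congr 1
    simp only [eval_mul, eval_C, eval_sub, eval_one, eval_X]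
    ring
  have hPeval : ∀ y : ℝ, P.eval y = 1 - (1 - y) * (r.eval ((1 - y) / 2)) ^ 2 := by
    intro y
    rw [hPdef]
    simp only [eval_sub, eval_one, eval_mul, eval_X, eval_pow]
    rw [hgeval]
  -- the degree of `P`
  have hq : (C (1 / 2 : ℝ) * (1 - X)).natDegree ≤ 1 := by
    refine le_trans (natDegree_C_mul_le _ _) ?_
    refine le_trans (natDegree_sub_le _ _) ?_
    simp
  have hgdeg : g.natDegree ≤ r.natDegree := by
    rw [hg]
    refine le_trans natDegree_comp_le ?_
    calc r.natDegree * (C (1 / 2 : ℝ) * (1 - X)).natDegree ≤ r.natDegree * 1 :=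
          Nat.mul_le_mul_left _ hq
      _ = r.natDegree := mul_one _
  have hPnat : P.natDegree ≤ m := by
    rw [hPdef]
    refine le_trans (natDegree_sub_le _ _) ?_
    rw [natDegree_one]
    refine max_le (Nat.zero_le _) ?_
    refine le_trans natDegree_mul_le ?_
    have h1 : (1 - X : ℝ[X]).natDegree ≤ 1 := by
      refine le_trans (natDegree_sub_le _ _) ?_
      simp
    have h2 : (g ^ 2).natDegree ≤ 2 * g.natDegree := natDegree_pow_le
    omega
  have hPdeg : P.degree ≤ m := degree_le_of_natDegree_le hPnat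
  -- the bound on `[-1, 1]`
  have hPbd : ∀ y ∈ Set.Icc (-1 : ℝ) 1, |P.eval y| ≤ 1 := by
    intro y hy
    obtain ⟨hy1, hy2⟩ := hy
    have h0 : 0 ≤ (1 - y) / 2 := by linarith
    have hx0 : 0 ≤ Real.sqrt ((1 - y) / 2) := Real.sqrt_nonneg _
    have hx1 : Real.sqrt ((1 - y) / 2) ≤ 1 := Real.sqrt_le_one.2 (by linarith)
    have hxsq : Real.sqrt ((1 - y) / 2) ^ 2 = (1 - y) / 2 := Real.sq_sqrt h0
    have h1 := hbd _ hx0 hx1
    rw [hxsq] at h1
    have h2 : (Real.sqrt ((1 - y) / 2) * r.eval ((1 - y) / 2)) ^ 2 ≤ 1 := by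
      rw [sq_le_one_iff_abs_le_one]
      exact h1
    have h3 : P.eval y = 1 - 2 * (Real.sqrt ((1 - y) / 2) * r.eval ((1 - y) / 2)) ^ 2 := by
      rw [hPeval, mul_pow, hxsq]
      ring
    rw [h3, abs_le]
    constructor
    · linarith
    · have := sq_nonneg (Real.sqrt ((1 - y) / 2) * r.eval ((1 - y) / 2))
      linarith
  -- the derivative at `1`
  have hder : (derivative P).eval 1 = (r.eval 0) ^ 2 := by
    rw [hPdef, cheb_deriv_aux, eval_pow, hgeval]
    norm_num
  have hmain := cheb_deriv_le hm hPdeg hPbd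
  rw [hder, hPeval, cheb_node_one hm] at hmain
  have hy0 : Polynomial.Chebyshev.node m 0 = 1 := Polynomial.Chebyshev.node_eq_one
  have hy1 : Polynomial.Chebyshev.node m 1 < 1 := by
    rw [← hy0]
    exact Polynomial.Chebyshev.node_lt hm Nat.zero_lt_one
  rw [cheb_node_one hm] at hy1
  have hs : 0 < (Real.sin (Real.pi / (2 * m))) ^ 2 := by linarith
  have hs' : (Real.sin (Real.pi / (2 * m))) ^ 2 ≠ 0 := ne_of_gt hs
  have harg : (1 - (1 - 2 * (Real.sin (Real.pi / (2 * m))) ^ 2)) / 2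
      = (Real.sin (Real.pi / (2 * m))) ^ 2 := by ring
  rw [harg] at hmain
  have hfin : ∀ (s ρ : ℝ), s ^ 2 ≠ 0 →
      (1 + (1 - (1 - (1 - 2 * s ^ 2)) * ρ ^ 2)) / (1 - (1 - 2 * s ^ 2))
        = (1 - (s * ρ) ^ 2) / s ^ 2 := by
    intro s ρ hs0
    have hs1 : s ≠ 0 := by
      intro h
      apply hs0
      rw [h]
      norm_num
    field_simp
    ring
  rw [hfin _ _ hs'] at hmain
  exact hmain

/-- The derivative of the Chebyshev polynomial vanishes at the interior nodes. -/
theorem cheb_derivT_node {m i : ℕ} (hi1 : 1 ≤ i) (hi2 : i + 1 ≤ m) :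
    (derivative (Polynomial.Chebyshev.T ℝ (m : ℤ))).eval (Polynomial.Chebyshev.node m i) = 0 := by
  have hm0 : (0 : ℝ) < m := by exact_mod_cast (show 0 < m by omega)
  have hm0' : (m : ℝ) ≠ 0 := ne_of_gt hm0
  rw [Polynomial.Chebyshev.T_derivative_eq_U]
  have hU := Polynomial.Chebyshev.U_real_cos ((i : ℝ) * Real.pi / m) ((m : ℤ) - 1)
  have harg : ((((m : ℤ) - 1 : ℤ) : ℝ) + 1) * ((i : ℝ) * Real.pi / m) = (i : ℝ) * Real.pi := by
    push_cast
    field_simp
    ring
  rw [harg, Real.sin_nat_mul_pi] at hU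
  have hpos : 0 < Real.sin ((i : ℝ) * Real.pi / m) := by
    apply Real.sin_pos_of_pos_of_lt_pi
    · have hi0 : (0 : ℝ) < i := by exact_mod_cast (show 0 < i by omega)
      have := Real.pi_pos
      positivity
    · rw [div_lt_iff₀ hm0]
      have him : (i : ℝ) < m := by exact_mod_cast (show i < m by omega)
      have := Real.pi_pos
      nlinarith
  have hU0 : (Polynomial.Chebyshev.U ℝ ((m : ℤ) - 1)).eval
      (Real.cos ((i : ℝ) * Real.pi / m)) = 0 := by
    rcases mul_eq_zero.1 hU with h | h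
    · exact h
    · exact absurd h (ne_of_gt hpos)
  unfold Polynomial.Chebyshev.node
  rw [eval_mul, hU0, mul_zero]

/-- For `m ≥ 2` the weight of the first node is exactly `-2 / (1 - y_1)`. -/
theorem cheb_c_one_two {m : ℕ} (hm : 2 ≤ m) :
    (-1 : ℝ) ^ 1 * cheb_c m 1 = 2 / (1 - Polynomial.Chebyshev.node m 1) := by
  have hm1 : 1 ≤ m := by omega
  have hm0 : (m : ℝ) ≠ 0 := by
    have : (0 : ℝ) < m := by exact_mod_cast (show 0 < m by omega)
    exact ne_of_gt this
  have hy0 : Polynomial.Chebyshev.node m 0 = 1 := Polynomial.Chebyshev.node_eq_one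
  have hym : Polynomial.Chebyshev.node m m = -1 :=
    Polynomial.Chebyshev.node_eq_neg_one (by omega)
  have hy1 : Polynomial.Chebyshev.node m 1 < 1 := by
    rw [← hy0]
    exact Polynomial.Chebyshev.node_lt hm1 Nat.zero_lt_one
  have h1y : 0 < 1 - Polynomial.Chebyshev.node m 1 := by linarith
  obtain ⟨y, hy⟩ : ∃ y : ℝ, y = Polynomial.Chebyshev.node m 1 := ⟨_, rfl⟩
  obtain ⟨T, hT⟩ : ∃ T : ℝ[X], T = Polynomial.Chebyshev.T ℝ (m : ℤ) := ⟨_, rfl⟩
  have hroot : (derivative T).IsRoot y := by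
    rw [hT, hy]
    exact cheb_derivT_node le_rfl hm
  obtain ⟨q, hq⟩ : ∃ q : ℝ[X], q = derivative T /ₘ (X - C y) := ⟨_, rfl⟩
  have hfac : (X - C y) * q = derivative T := by
    rw [hq]
    exact mul_divByMonic_eq_iff_isRoot.2 hroot
  -- the value of `q` at `1`
  have hq1 : (1 - y) * q.eval 1 = (m : ℝ) ^ 2 := by
    have h := congrArg (eval 1) hfac
    rw [eval_mul, eval_sub, eval_X, eval_C, hT, Polynomial.Chebyshev.derivative_T_eval_one] at h
    rw [h]
    push_cast
    ring
  -- the value of `q` at the other interior nodes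
  have hqi : ∀ i, 2 ≤ i → i + 1 ≤ m → q.eval (Polynomial.Chebyshev.node m i) = 0 := by
    intro i hi1 hi2
    have h := congrArg (eval (Polynomial.Chebyshev.node m i)) hfac
    rw [eval_mul, eval_sub, eval_X, eval_C, hT, cheb_derivT_node (by omega) hi2] at h
    have hne : Polynomial.Chebyshev.node m i - y ≠ 0 := by
      rw [hy]
      exact ne_of_lt (sub_neg.2 (Polynomial.Chebyshev.node_lt (by omega) (by omega)))
    exact (mul_eq_zero.1 h).resolve_left hne
  -- the value of `q` at `y`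
  have hqy : (1 - y ^ 2) * q.eval y = (m : ℝ) ^ 2 := by
    have hd : derivative (derivative T) = q + (X - C y) * derivative q := by
      rw [← hfac]
      simp only [derivative_mul, derivative_sub, derivative_X, derivative_C]
      ring
    have hode := Polynomial.Chebyshev.one_sub_X_sq_mul_derivative_derivative_T_eq_poly_in_T
      (R := ℝ) (m : ℤ)
    rw [Function.iterate_succ, Function.iterate_one, Function.comp_apply, ← hT, hd] at hode
    have h2 := congrArg (eval y) hode
    have hTy : T.eval y = -1 := by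
      rw [hT, hy, Polynomial.Chebyshev.eval_T_real_node (Finset.mem_Iic.2 hm1)]
      norm_num
    have hDy : (derivative T).eval y = 0 := hroot
    simp only [eval_mul, eval_sub, eval_one, eval_pow, eval_X, eval_add, eval_C, sub_self,
      zero_mul, add_zero, eval_intCast, hTy, hDy] at h2
    rw [h2]
    push_cast
    ring
  -- the auxiliary polynomial
  obtain ⟨P0, hP0⟩ : ∃ P0 : ℝ[X], P0 = (1 - X ^ 2) * q := ⟨_, rfl⟩
  have hP0eval : ∀ x : ℝ, P0.eval x = (1 - x ^ 2) * q.eval x := by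
    intro x
    rw [hP0]
    simp only [eval_mul, eval_sub, eval_one, eval_pow, eval_X]
  have hTnat : T.natDegree = m := by
    rw [hT, Polynomial.Chebyshev.natDegree_T]
    simp
  have hDnat : (derivative T).natDegree ≤ m - 1 := by
    have := natDegree_derivative_le T
    rw [hTnat] at this
    exact this
  have hqnat : q.natDegree ≤ m - 2 := by
    rw [hq, natDegree_divByMonic _ (monic_X_sub_C y), natDegree_X_sub_C]
    omega
  have hP0nat : P0.natDegree ≤ m := by
    rw [hP0]
    refine le_trans natDegree_mul_le ?_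
    have h1 : (1 - X ^ 2 : ℝ[X]).natDegree ≤ 2 := by
      refine le_trans (natDegree_sub_le _ _) ?_
      simp
    omega
  have hP0deg : P0.degree ≤ m := degree_le_of_natDegree_le hP0nat
  have hformula := cheb_deriv_eq_sum hm1 hP0deg
  have hsingle : ∑ i ∈ Finset.range (m + 1),
      P0.eval (Polynomial.Chebyshev.node m i) * cheb_c m i
      = P0.eval (Polynomial.Chebyshev.node m 1) * cheb_c m 1 := by
    apply Finset.sum_eq_single 1
    · intro i hi hne
      have hi' : i ≤ m := Nat.lt_succ_iff.1 (Finset.mem_range.1 hi)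
      have hz : P0.eval (Polynomial.Chebyshev.node m i) = 0 := by
        rw [hP0eval]
        rcases Nat.eq_zero_or_pos i with h0 | h0
        · rw [h0, hy0]
          norm_num
        · rcases Nat.lt_or_ge i m with hlt | hge
          · rw [hqi i (by omega) (by omega), mul_zero]
          · have him : i = m := le_antisymm hi' hge
            rw [him, hym]
            norm_num
      rw [hz, zero_mul]
    · intro h
      exact absurd (Finset.mem_range.2 (by omega)) h
  have hder : (derivative P0).eval 1 = -2 * q.eval 1 := by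
    have hd1 : (derivative (1 - X ^ 2 : ℝ[X])).eval 1 = -2 := by
      simp
      norm_num
    rw [hP0, derivative_mul, eval_add, eval_mul, eval_mul, hd1]
    simp
  rw [hsingle, hder, hP0eval, ← hy, hqy] at hformula
  rw [← hy, eq_div_iff (ne_of_gt (by rw [hy]; exact h1y))]
  have hm2 : (m : ℝ) ^ 2 ≠ 0 := pow_ne_zero 2 hm0
  apply mul_left_cancel₀ hm2
  linear_combination (1 - y) * hformula + 2 * hq1

/-- The interpolation inequality with the sharp constant, for `m ≥ 2`. -/
theorem cheb_deriv_le_two {m : ℕ} (hm : 2 ≤ m) {P : ℝ[X]} (hP : P.degree ≤ m)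
    (hPbd : ∀ y ∈ Set.Icc (-1 : ℝ) 1, |P.eval y| ≤ 1) :
    (derivative P).eval 1 ≤ (m : ℝ) ^ 2
      - 2 * (1 + P.eval (Polynomial.Chebyshev.node m 1))
        / (1 - Polynomial.Chebyshev.node m 1) := by
  have hm1 : 1 ≤ m := by omega
  rw [cheb_deriv_eq_sum hm1 hP, ← cheb_sum_c hm1]
  have hb : ∀ i, (-1 : ℝ) ^ i * P.eval (Polynomial.Chebyshev.node m i) ≤ 1 := by
    intro i
    have h1 := hPbd _ (Polynomial.Chebyshev.node_mem_Icc (n := m) (i := i))
    have h2 : |(-1 : ℝ) ^ i * P.eval (Polynomial.Chebyshev.node m i)| ≤ 1 := by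
      rw [abs_mul, abs_neg_one_pow, one_mul]
      exact h1
    exact le_of_abs_le h2
  have hsq : ∀ i : ℕ, (-1 : ℝ) ^ i * (-1 : ℝ) ^ i = 1 := by
    intro i
    rw [← mul_pow]
    norm_num
  have hterm : ∀ i ∈ Finset.range (m + 1),
      P.eval (Polynomial.Chebyshev.node m i) * cheb_c m i
        = (-1 : ℝ) ^ i * cheb_c m i
          - (1 - (-1 : ℝ) ^ i * P.eval (Polynomial.Chebyshev.node m i))
            * ((-1 : ℝ) ^ i * cheb_c m i) := by
    intro i _
    have h := hsq i
    linear_combination (- P.eval (Polynomial.Chebyshev.node m i) * cheb_c m i) * h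
  rw [Finset.sum_congr rfl hterm, Finset.sum_sub_distrib]
  have hnn : ∀ i ∈ Finset.range (m + 1),
      0 ≤ (1 - (-1 : ℝ) ^ i * P.eval (Polynomial.Chebyshev.node m i))
            * ((-1 : ℝ) ^ i * cheb_c m i) := by
    intro i hi
    apply mul_nonneg
    · have := hb i
      linarith
    · exact cheb_c_sign (Nat.lt_succ_iff.1 (Finset.mem_range.1 hi))
  have h1mem : 1 ∈ Finset.range (m + 1) := Finset.mem_range.2 (by omega)
  have hsingle := Finset.single_le_sum
    (f := fun i : ℕ => (1 - (-1 : ℝ) ^ i * P.eval (Polynomial.Chebyshev.node m i))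
            * ((-1 : ℝ) ^ i * cheb_c m i)) hnn h1mem
  have hc1 := cheb_c_one_two hm
  have hkey : 2 * (1 + P.eval (Polynomial.Chebyshev.node m 1))
        / (1 - Polynomial.Chebyshev.node m 1)
      = (1 - (-1 : ℝ) ^ 1 * P.eval (Polynomial.Chebyshev.node m 1))
            * ((-1 : ℝ) ^ 1 * cheb_c m 1) := by
    rw [hc1]
    ring
  linarith

theorem cheb_center_bound_two (m : ℕ) (hm : 2 ≤ m) (r : ℝ[X]) (hr : 2 * r.natDegree + 1 ≤ m)
    (hbd : ∀ x : ℝ, 0 ≤ x → x ≤ 1 → |x * r.eval (x ^ 2)| ≤ 1) :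
    (r.eval 0) ^ 2 ≤ (m : ℝ) ^ 2
      - 2 * (1 - (Real.sin (Real.pi / (2 * m)) * r.eval ((Real.sin (Real.pi / (2 * m))) ^ 2)) ^ 2)
        / (Real.sin (Real.pi / (2 * m))) ^ 2 := by
  have hm1 : 1 ≤ m := by omega
  obtain ⟨g, hg⟩ : ∃ g : ℝ[X], g = r.comp (C (1 / 2) * (1 - X)) := ⟨_, rfl⟩
  obtain ⟨P, hPdef⟩ : ∃ P : ℝ[X], P = 1 - (1 - X) * g ^ 2 := ⟨_, rfl⟩
  have hgeval : ∀ y : ℝ, g.eval y = r.eval ((1 - y) / 2) := by
    intro y
    rw [hg, eval_comp]
    congr 1
    simp only [eval_mul, eval_C, eval_sub, eval_one, eval_X]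
    ring
  have hPeval : ∀ y : ℝ, P.eval y = 1 - (1 - y) * (r.eval ((1 - y) / 2)) ^ 2 := by
    intro y
    rw [hPdef]
    simp only [eval_sub, eval_one, eval_mul, eval_X, eval_pow]
    rw [hgeval]
  have hq : (C (1 / 2 : ℝ) * (1 - X)).natDegree ≤ 1 := by
    refine le_trans (natDegree_C_mul_le _ _) ?_
    refine le_trans (natDegree_sub_le _ _) ?_
    simp
  have hgdeg : g.natDegree ≤ r.natDegree := by
    rw [hg]
    refine le_trans natDegree_comp_le ?_
    calc r.natDegree * (C (1 / 2 : ℝ) * (1 - X)).natDegree ≤ r.natDegree * 1 :=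
          Nat.mul_le_mul_left _ hq
      _ = r.natDegree := mul_one _
  have hPnat : P.natDegree ≤ m := by
    rw [hPdef]
    refine le_trans (natDegree_sub_le _ _) ?_
    rw [natDegree_one]
    refine max_le (Nat.zero_le _) ?_
    refine le_trans natDegree_mul_le ?_
    have h1 : (1 - X : ℝ[X]).natDegree ≤ 1 := by
      refine le_trans (natDegree_sub_le _ _) ?_
      simp
    have h2 : (g ^ 2).natDegree ≤ 2 * g.natDegree := natDegree_pow_le
    omega
  have hPdeg : P.degree ≤ m := degree_le_of_natDegree_le hPnat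
  have hPbd : ∀ y ∈ Set.Icc (-1 : ℝ) 1, |P.eval y| ≤ 1 := by
    intro y hy
    obtain ⟨hy1, hy2⟩ := hy
    have h0 : 0 ≤ (1 - y) / 2 := by linarith
    have hx0 : 0 ≤ Real.sqrt ((1 - y) / 2) := Real.sqrt_nonneg _
    have hx1 : Real.sqrt ((1 - y) / 2) ≤ 1 := Real.sqrt_le_one.2 (by linarith)
    have hxsq : Real.sqrt ((1 - y) / 2) ^ 2 = (1 - y) / 2 := Real.sq_sqrt h0
    have h1 := hbd _ hx0 hx1
    rw [hxsq] at h1
    have h2 : (Real.sqrt ((1 - y) / 2) * r.eval ((1 - y) / 2)) ^ 2 ≤ 1 := by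
      rw [sq_le_one_iff_abs_le_one]
      exact h1
    have h3 : P.eval y = 1 - 2 * (Real.sqrt ((1 - y) / 2) * r.eval ((1 - y) / 2)) ^ 2 := by
      rw [hPeval, mul_pow, hxsq]
      ring
    rw [h3, abs_le]
    constructor
    · linarith
    · have := sq_nonneg (Real.sqrt ((1 - y) / 2) * r.eval ((1 - y) / 2))
      linarith
  have hder : (derivative P).eval 1 = (r.eval 0) ^ 2 := by
    rw [hPdef, cheb_deriv_aux, eval_pow, hgeval]
    norm_num
  have hmain := cheb_deriv_le_two hm hPdeg hPbd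
  rw [hder, hPeval, cheb_node_one hm1] at hmain
  have hy0 : Polynomial.Chebyshev.node m 0 = 1 := Polynomial.Chebyshev.node_eq_one
  have hy1 : Polynomial.Chebyshev.node m 1 < 1 := by
    rw [← hy0]
    exact Polynomial.Chebyshev.node_lt hm1 Nat.zero_lt_one
  rw [cheb_node_one hm1] at hy1
  have hs : 0 < (Real.sin (Real.pi / (2 * m))) ^ 2 := by linarith
  have hs' : (Real.sin (Real.pi / (2 * m))) ^ 2 ≠ 0 := ne_of_gt hs
  have harg : (1 - (1 - 2 * (Real.sin (Real.pi / (2 * m))) ^ 2)) / 2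
      = (Real.sin (Real.pi / (2 * m))) ^ 2 := by ring
  rw [harg] at hmain
  have hfin : ∀ (s ρ : ℝ), s ^ 2 ≠ 0 →
      2 * (1 + (1 - (1 - (1 - 2 * s ^ 2)) * ρ ^ 2)) / (1 - (1 - 2 * s ^ 2))
        = 2 * (1 - (s * ρ) ^ 2) / s ^ 2 := by
    intro s ρ hs0
    have hs1 : s ≠ 0 := by
      intro h
      apply hs0
      rw [h]
      norm_num
    field_simp
    ring
  rw [hfin _ _ hs'] at hmain
  exact hmain

end Vale.Agent.Lib.P047.Upper
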