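import Vale.Agent.Lib.P047.Upper.Strong

/-!
# P047: the improved upper bound for large degree

For odd `m ≥ 63` and `d ≤ m + 1` the level-one sum is at most `(47/50) m`.
-/

namespace Vale.Agent.Lib.P047

open Finset

/-- A lower bound for `(1 - sin (π / (2 m)))^(2 d)` that is uniform in `m ≥ m₀`, `d ≤ m + 1`. -/
lemma pow_node_lower_gen (m₀ m d : ℕ) (hm₀ : 3 ≤ m₀) (hm : m₀ ≤ m) (hdm : d ≤ m + 1) :
    (1 - Real.pi / (2 * m₀)) ^ (2 * m₀ + 2) ≤ (1 - Real.sin (Real.pi / (2 * m))) ^ (2 * d) := by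
  have hm₀R : (3 : ℝ) ≤ m₀ := by exact_mod_cast hm₀
  have hmR : (m₀ : ℝ) ≤ m := by exact_mod_cast hm
  have hpi3 := Real.pi_gt_three
  have hpi4 := Real.pi_lt_four
  have hm0 : (0 : ℝ) < 2 * m := by linarith
  have hm₀0 : (0 : ℝ) < 2 * m₀ := by linarith
  set b : ℝ := 1 - Real.pi / (2 * m) with hb
  set c : ℝ := 1 - Real.pi / (2 * m₀) with hc
  have hang : Real.pi / (2 * m) ≤ Real.pi / (2 * m₀) :=
    div_le_div_of_nonneg_left Real.pi_pos.le hm₀0 (by linarith)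
  have hang6 : Real.pi / (2 * m₀) ≤ Real.pi / 6 :=
    div_le_div_of_nonneg_left Real.pi_pos.le (by norm_num) (by linarith)
  have hang0 : 0 ≤ Real.pi / (2 * m) := by positivity
  have hc0 : 0 < c := by rw [hc]; linarith
  have hb_ge : c ≤ b := by rw [hb, hc]; linarith
  have hb0 : 0 < b := lt_of_lt_of_le hc0 hb_ge
  have hb1 : b ≤ 1 := by rw [hb]; linarith
  have hs : Real.sin (Real.pi / (2 * m)) ≤ Real.pi / (2 * m) := Real.sin_le hang0
  have h1 : b ≤ 1 - Real.sin (Real.pi / (2 * m)) := by rw [hb]; linarith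
  have hp : (1 : ℝ) ≤ (m : ℝ) / m₀ := by
    rw [le_div_iff₀ (by linarith)]
    linarith
  have hbern : c ≤ b ^ ((m : ℝ) / m₀) := by
    have h := one_add_mul_self_le_rpow_one_add (s := -(Real.pi / (2 * m)))
      (by linarith) (p := (m : ℝ) / m₀) hp
    have hmne : (m : ℝ) ≠ 0 := ne_of_gt (by linarith)
    have hm₀ne : (m₀ : ℝ) ≠ 0 := ne_of_gt (by linarith)
    have e1 : 1 + (m : ℝ) / m₀ * -(Real.pi / (2 * m)) = c := by
      rw [hc]
      field_simp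
      ring
    have e2 : 1 + -(Real.pi / (2 * m)) = b := by rw [hb]; ring
    rw [e1, e2] at h
    exact h
  have hbm : c ^ m₀ ≤ b ^ m := by
    calc c ^ m₀ ≤ (b ^ ((m : ℝ) / m₀)) ^ m₀ := pow_le_pow_left₀ hc0.le hbern m₀
      _ = b ^ m := by
          rw [← Real.rpow_natCast, ← Real.rpow_mul hb0.le]
          have hm₀ne : (m₀ : ℝ) ≠ 0 := ne_of_gt (by linarith)
          have : (m : ℝ) / m₀ * (m₀ : ℝ) = m := by
            field_simp
          rw [this, Real.rpow_natCast]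
  calc c ^ (2 * m₀ + 2) = (c ^ m₀) ^ 2 * c ^ 2 := by ring
    _ ≤ (b ^ m) ^ 2 * b ^ 2 := by gcongr
    _ = b ^ (2 * m + 2) := by ring
    _ ≤ b ^ (2 * d) := pow_le_pow_of_le_one hb0.le hb1 (by omega)
    _ ≤ (1 - Real.sin (Real.pi / (2 * m))) ^ (2 * d) := pow_le_pow_left₀ hb0.le h1 _

lemma node_const_lower_large : (391 / 10000 : ℝ) ≤ (1 - Real.pi / (2 * (63 : ℕ))) ^ (2 * 63 + 2) := by
  have hpi := Real.pi_lt_d2
  have h : (39 / 40 : ℝ) ≤ 1 - Real.pi / (2 * (63 : ℕ)) := by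
    push_cast
    linarith
  calc (391 / 10000 : ℝ) ≤ (39 / 40 : ℝ) ^ (2 * 63 + 2) := by norm_num
    _ ≤ (1 - Real.pi / (2 * (63 : ℕ))) ^ (2 * 63 + 2) := pow_le_pow_left₀ (by norm_num) h _

/-- For odd `m ≥ 63` and `d ≤ m + 1` the level-one sum is at most `(47/50) m`. -/
lemma levelOne_le_of_large {n d m : ℕ} (f : (Fin n → Bool) → ℝ) (hf : IsBoolean f)
    (hd : DegLE f d) (hm : Odd m) (hm63 : 63 ≤ m) (hdm : d ≤ m + 1) :
    levelOne f ≤ 47 / 50 * m := by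
  have hm3 : 3 ≤ m := by omega
  have hmain := levelOne_sq_le_strong f hf hd hm hm3 hdm
  have hmR : (3 : ℝ) ≤ m := by exact_mod_cast hm3
  set s : ℝ := Real.sin (Real.pi / (2 * m)) with hs
  set a : ℝ := (1 - s) ^ (2 * d) with ha
  have hang0 : 0 < Real.pi / (2 * m) := by positivity
  have hang1 : Real.pi / (2 * m) ≤ Real.pi / 6 :=
    div_le_div_of_nonneg_left Real.pi_pos.le (by norm_num) (by linarith)
  have hs0 : 0 < s := Real.sin_pos_of_pos_of_lt_pi hang0 (by linarith [Real.pi_pos])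
  have hs1 : s ≤ 1 := Real.sin_le_one _
  have hsle : s ≤ Real.pi / (2 * m) := Real.sin_le hang0.le
  have ha1 : a ≤ 1 := pow_le_one₀ (by linarith) (by linarith)
  have ha0 : (391 / 10000 : ℝ) ≤ a :=
    le_trans node_const_lower_large (pow_node_lower_gen 63 m d (by norm_num) hm63 hdm)
  have hnum : (2897 / 10000 : ℝ) ≤ 8 * a / (1 + a) ^ 2 := by
    refine le_trans ?_ (eight_mul_div_mono (by norm_num) ha0 ha1)
    norm_num
  have hpi := Real.pi_lt_d4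
  have hpi0 := Real.pi_pos
  have hs2 : s ^ 2 ≤ (Real.pi / (2 * m)) ^ 2 := pow_le_pow_left₀ hs0.le hsle 2
  have hm2 : 0 < (m : ℝ) ^ 2 := by positivity
  have hs2' : s ^ 2 * (m : ℝ) ^ 2 ≤ 24675 / 10000 := by
    have h1 : (Real.pi / (2 * m)) ^ 2 * (m : ℝ) ^ 2 = Real.pi ^ 2 / 4 := by
      field_simp
      ring
    have h2 : Real.pi ^ 2 ≤ 3.1416 ^ 2 := pow_le_pow_left₀ hpi0.le hpi.le 2
    nlinarith
  have hs2pos : 0 < s ^ 2 := by positivity
  have hgain : 1174 / 10000 * (m : ℝ) ^ 2 ≤ 8 * a / ((1 + a) ^ 2 * s ^ 2) := by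
    have e : 8 * a / ((1 + a) ^ 2 * s ^ 2) = 8 * a / (1 + a) ^ 2 / s ^ 2 := by
      rw [div_div]
    rw [e, le_div_iff₀ hs2pos]
    nlinarith
  have hsq : (levelOne f) ^ 2 ≤ (47 / 50 * (m : ℝ)) ^ 2 := by
    have : (levelOne f) ^ 2 ≤ (m : ℝ) ^ 2 - 1174 / 10000 * (m : ℝ) ^ 2 := by linarith
    nlinarith [sq_nonneg (m : ℝ)]
  exact le_of_abs_le (abs_le_of_sq_le_sq hsq (by positivity))

end Vale.Agent.Lib.P047
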