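import Mathlib

/-!
Integrating a Riccati inequality for one real polynomial

If `Q 0 = 0` and `(1 - t) * Q' t ≤ d * (1 - Q t ^ 2)` on `[0, 1)`, then
`Q t ≤ 1 - (1 - t) ^ (2 * d)`, and even `Q t * (1 + a) ≤ 1 - a` with `a = (1 - t) ^ (2 * d)`.
-/

open Polynomial

namespace Vale.Agent.Lib.P047.Upper

theorem ode_pow_pred (n : ℕ) (a : ℝ) : (n : ℝ) * a ^ (n - 1) * a = n * a ^ n := by
  cases n with
  | zero => simp
  | succ m =>
    have h : m + 1 - 1 = m := by omega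
    rw [h, pow_succ]
    ring

theorem ode_hasDerivAt_pow (n : ℕ) (s : ℝ) :
    HasDerivAt (fun x : ℝ => (1 - x) ^ n) ((n : ℝ) * (1 - s) ^ (n - 1) * (-1)) s := by
  have hid : HasDerivAt (fun x : ℝ => 1 - x) (-1) s := (hasDerivAt_id s).const_sub 1
  exact hid.pow n

theorem ode_hasDerivAt (Q : ℝ[X]) (n : ℕ) (s : ℝ) (hs : 1 - s ≠ 0) :
    HasDerivAt (fun x : ℝ => (1 - Q.eval x) * ((1 - x) ^ n)⁻¹)
      (-(derivative Q).eval s * ((1 - s) ^ n)⁻¹ +
        (1 - Q.eval s) * (-((n : ℝ) * (1 - s) ^ (n - 1) * (-1)) / ((1 - s) ^ n) ^ 2)) s := by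
  have hQ : HasDerivAt (fun x : ℝ => Q.eval x) ((derivative Q).eval s) s := Q.hasDerivAt s
  have h1 : HasDerivAt (fun x : ℝ => 1 - Q.eval x) (-(derivative Q).eval s) s := hQ.const_sub 1
  have hinv := (ode_hasDerivAt_pow n s).inv (pow_ne_zero n hs)
  exact h1.mul hinv

/-- the algebra behind the sign of the derivative of `(1 - Q) / (1 - s) ^ n` -/
theorem ode_deriv_eq (n : ℕ) (a q q' : ℝ) (ha : 0 < a) :
    -q' * (a ^ n)⁻¹ + (1 - q) * (-((n : ℝ) * a ^ (n - 1) * (-1)) / (a ^ n) ^ 2)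
      = (-(a * q') + n * (1 - q)) / (a * a ^ n) := by
  have hA : 0 < a ^ n := pow_pos ha n
  have hB := ode_pow_pred n a
  have h2 : (n : ℝ) * a ^ (n - 1) / (a ^ n) ^ 2 = n / (a * a ^ n) := by
    rw [div_eq_div_iff (by positivity) (by positivity)]
    linear_combination a ^ n * hB
  have h3 : -((n : ℝ) * a ^ (n - 1) * (-1)) / (a ^ n) ^ 2 = n / (a * a ^ n) := by
    rw [← h2]
    ring
  rw [h3]
  field_simp

theorem ode_mono (Q : ℝ[X]) (d : ℕ)
    (hode : ∀ t : ℝ, 0 ≤ t → t < 1 →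
      (1 - t) * (derivative Q).eval t ≤ d * (1 - (Q.eval t) ^ 2)) :
    MonotoneOn (fun x : ℝ => (1 - Q.eval x) * ((1 - x) ^ (2 * d))⁻¹) (Set.Ico 0 1) := by
  apply monotoneOn_of_deriv_nonneg (convex_Ico 0 1)
  · intro x hx
    have hx1 : 1 - x ≠ 0 := by
      have := hx.2
      linarith
    exact (ode_hasDerivAt Q (2 * d) x hx1).continuousAt.continuousWithinAt
  · intro x hx
    rw [interior_Ico] at hx
    have hx1 : 1 - x ≠ 0 := by
      have := hx.2
      linarith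
    exact (ode_hasDerivAt Q (2 * d) x hx1).differentiableAt.differentiableWithinAt
  · intro x hx
    rw [interior_Ico] at hx
    have hx1 : 1 - x ≠ 0 := by
      have := hx.2
      linarith
    have ha : 0 < 1 - x := by
      have := hx.2
      linarith
    rw [(ode_hasDerivAt Q (2 * d) x hx1).deriv, ode_deriv_eq (2 * d) (1 - x) _ _ ha]
    apply div_nonneg _ (by positivity)
    have h := hode x hx.1.le hx.2
    have hcast : ((2 * d : ℕ) : ℝ) = 2 * (d : ℝ) := by push_cast; ring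
    rw [hcast]
    nlinarith [sq_nonneg (1 - Q.eval x), mul_nonneg (Nat.cast_nonneg (α := ℝ) d) (sq_nonneg (1 - Q.eval x))]

theorem ode_bound (Q : ℝ[X]) (d : ℕ) (h0 : Q.eval 0 = 0)
    (hode : ∀ t : ℝ, 0 ≤ t → t < 1 →
      (1 - t) * (derivative Q).eval t ≤ d * (1 - (Q.eval t) ^ 2))
    (t : ℝ) (ht0 : 0 ≤ t) (ht1 : t < 1) :
    Q.eval t ≤ 1 - (1 - t) ^ (2 * d) := by
  have hm := ode_mono Q d hode (Set.left_mem_Ico.mpr zero_lt_one) ⟨ht0, ht1⟩ ht0
  simp only [h0, sub_zero, one_pow, inv_one, mul_one] at hm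
  have ha : 0 < (1 - t) ^ (2 * d) := pow_pos (by linarith) _
  have h1 : (1 - t) ^ (2 * d) ≤ 1 - Q.eval t := by
    have h2 := mul_le_mul_of_nonneg_right hm ha.le
    rw [one_mul, mul_assoc, inv_mul_cancel₀ ha.ne', mul_one] at h2
    exact h2
  linarith

theorem ode_hasDerivAt_tanh (Q : ℝ[X]) (n : ℕ) (s : ℝ) (hs : 1 - Q.eval s ≠ 0) :
    HasDerivAt (fun x : ℝ => (1 + Q.eval x) * (1 - x) ^ n * (1 - Q.eval x)⁻¹)
      (((derivative Q).eval s * (1 - s) ^ n +
          (1 + Q.eval s) * ((n : ℝ) * (1 - s) ^ (n - 1) * (-1))) * (1 - Q.eval s)⁻¹ +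
        (1 + Q.eval s) * (1 - s) ^ n * (-(-(derivative Q).eval s) / (1 - Q.eval s) ^ 2)) s := by
  have hQ : HasDerivAt (fun x : ℝ => Q.eval x) ((derivative Q).eval s) s := Q.hasDerivAt s
  have h1 : HasDerivAt (fun x : ℝ => 1 - Q.eval x) (-(derivative Q).eval s) s := hQ.const_sub 1
  have h2 : HasDerivAt (fun x : ℝ => 1 + Q.eval x) ((derivative Q).eval s) s := hQ.const_add 1
  exact (h2.mul (ode_hasDerivAt_pow n s)).mul (h1.inv hs)

/-- the algebra behind the sign of the derivative of `(1 + Q) (1 - s) ^ n / (1 - Q)` -/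
theorem ode_deriv_eq_tanh (n : ℕ) (a q q' : ℝ) (ha : 0 < a) (hq : 0 < 1 - q) :
    (q' * a ^ n + (1 + q) * ((n : ℝ) * a ^ (n - 1) * (-1))) * (1 - q)⁻¹ +
        (1 + q) * a ^ n * (-(-q') / (1 - q) ^ 2)
      = a ^ n * (2 * (a * q') - n * (1 - q ^ 2)) / ((1 - q) ^ 2 * a) := by
  have hB := ode_pow_pred n a
  rw [eq_div_iff (by positivity)]
  field_simp
  linear_combination (-(1 + q) * (1 - q)) * hB

theorem ode_anti (Q : ℝ[X]) (d : ℕ) (h0 : Q.eval 0 = 0)
    (hode : ∀ t : ℝ, 0 ≤ t → t < 1 →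
      (1 - t) * (derivative Q).eval t ≤ d * (1 - (Q.eval t) ^ 2)) :
    AntitoneOn (fun x : ℝ => (1 + Q.eval x) * (1 - x) ^ (2 * d) * (1 - Q.eval x)⁻¹)
      (Set.Ico 0 1) := by
  have hpos : ∀ x : ℝ, 0 ≤ x → x < 1 → 0 < 1 - Q.eval x := by
    intro x hx0 hx1
    have h := ode_bound Q d h0 hode x hx0 hx1
    have ha : 0 < (1 - x) ^ (2 * d) := pow_pos (by linarith) _
    linarith
  apply antitoneOn_of_deriv_nonpos (convex_Ico 0 1)
  · intro x hx
    exact (ode_hasDerivAt_tanh Q (2 * d) x (hpos x hx.1 hx.2).ne').continuousAt.continuousWithinAt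
  · intro x hx
    rw [interior_Ico] at hx
    exact (ode_hasDerivAt_tanh Q (2 * d) x
      (hpos x hx.1.le hx.2).ne').differentiableAt.differentiableWithinAt
  · intro x hx
    rw [interior_Ico] at hx
    have ha : 0 < 1 - x := by
      have := hx.2
      linarith
    have hq := hpos x hx.1.le hx.2
    rw [(ode_hasDerivAt_tanh Q (2 * d) x hq.ne').deriv,
      ode_deriv_eq_tanh (2 * d) (1 - x) _ _ ha hq]
    apply div_nonpos_of_nonpos_of_nonneg _ (by positivity)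
    apply mul_nonpos_of_nonneg_of_nonpos (by positivity)
    have h := hode x hx.1.le hx.2
    have hcast : ((2 * d : ℕ) : ℝ) = 2 * (d : ℝ) := by push_cast; ring
    rw [hcast]
    linarith

theorem ode_bound_tanh (Q : ℝ[X]) (d : ℕ) (h0 : Q.eval 0 = 0)
    (hode : ∀ t : ℝ, 0 ≤ t → t < 1 →
      (1 - t) * (derivative Q).eval t ≤ d * (1 - (Q.eval t) ^ 2))
    (t : ℝ) (ht0 : 0 ≤ t) (ht1 : t < 1) :
    Q.eval t * (1 + (1 - t) ^ (2 * d)) ≤ 1 - (1 - t) ^ (2 * d) := by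
  have hm := ode_anti Q d h0 hode (Set.left_mem_Ico.mpr zero_lt_one) ⟨ht0, ht1⟩ ht0
  simp only [h0, sub_zero, one_pow, inv_one, mul_one, add_zero] at hm
  have hb := ode_bound Q d h0 hode t ht0 ht1
  have ha : 0 < (1 - t) ^ (2 * d) := pow_pos (by linarith) _
  have hq : 0 < 1 - Q.eval t := by linarith
  have h2 := mul_le_mul_of_nonneg_right hm hq.le
  rw [one_mul, mul_assoc, inv_mul_cancel₀ hq.ne', mul_one] at h2
  linarith

end Vale.Agent.Lib.P047.Upper
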