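import Vale.Agent.Lib.P047.Upper.Restrict
import Vale.Agent.Lib.P047.Upper.Ode
import Vale.Agent.Lib.P047.Upper.Cheb

/-!
# P047: a constant-factor improvement of the bound `M(d) ≤ d`

The odd part `Q` of the bias polynomial of a Boolean function of degree at most `d` is an odd
polynomial of degree at most `m` (`m` odd, `d ≤ m + 1`), bounded by `1` on `[-1, 1]`, with
`Q'(0)` the level-one sum, and it satisfies `(1 - t) Q'(t) ≤ d (1 - Q(t)^2)` on `[0, 1)`.
Integration bounds `|Q|` away from `1` at the point `sin (π / (2 m))`, and interpolation at the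
Chebyshev nodes turns this into a bound on `Q'(0)` that is strictly smaller than `m`.
-/

namespace Vale.Agent.Lib.P047

open Finset Polynomial

/-- The odd part of the bias polynomial: `(P_f + P_{f*}) / 2`, where `f*(x) = - f(-x)`. -/
noncomputable def oddBias {n : ℕ} (f : (Fin n → Bool) → ℝ) : ℝ[X] :=
  C (1 / 2 : ℝ) * (biasPoly f + biasPoly (dual f))

/-- The polynomial `r` with `oddBias f = X * r(X^2)`. -/
noncomputable def oddRed {n : ℕ} (f : (Fin n → Bool) → ℝ) : ℝ[X] :=
  ∑ S ∈ (Finset.univ : Finset (Finset (Fin n))).filter (fun S => Odd S.card),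
    C (fourier f S) * X ^ ((S.card - 1) / 2)

lemma oddBias_eval {n : ℕ} (f : (Fin n → Bool) → ℝ) (x : ℝ) :
    (oddBias f).eval x = 1 / 2 * ((biasPoly f).eval x + (biasPoly (dual f)).eval x) := by
  simp [oddBias]

lemma oddBias_derivative_eval {n : ℕ} (f : (Fin n → Bool) → ℝ) (x : ℝ) :
    (derivative (oddBias f)).eval x
      = 1 / 2 * ((derivative (biasPoly f)).eval x + (derivative (biasPoly (dual f))).eval x) := by
  unfold oddBias
  rw [derivative_C_mul, eval_mul, eval_C, derivative_add, eval_add]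

lemma oddBias_eq {n : ℕ} (f : (Fin n → Bool) → ℝ) (x : ℝ) :
    (oddBias f).eval x = x * (oddRed f).eval (x ^ 2) := by
  classical
  rw [oddBias_eval, biasPoly_eval, biasPoly_eval, ← Finset.sum_add_distrib, Finset.mul_sum]
  unfold oddRed
  rw [eval_finsetSum, Finset.mul_sum, Finset.sum_filter]
  refine Finset.sum_congr rfl fun S _ => ?_
  rw [fourier_dual]
  by_cases hS : Odd S.card
  · rw [if_pos hS, hS.neg_one_pow, eval_mul, eval_C, eval_pow, eval_X]
    have hc : S.card = 2 * ((S.card - 1) / 2) + 1 := by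
      obtain ⟨k, hk⟩ := hS
      omega
    have hx : x ^ S.card = x * (x ^ 2) ^ ((S.card - 1) / 2) := by
      conv_lhs => rw [hc]
      rw [pow_succ, pow_mul]
      ring
    rw [hx]
    ring
  · rw [if_neg hS, (Nat.not_odd_iff_even.mp hS).neg_one_pow]
    ring

lemma sum_card_one {n : ℕ} (c : Finset (Fin n) → ℝ) :
    ∑ S : Finset (Fin n), (if S.card = 1 then c S else 0) = ∑ i : Fin n, c {i} := by
  classical
  rw [← Finset.sum_filter]
  have h : (Finset.univ : Finset (Finset (Fin n))).filter (fun S => S.card = 1)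
      = (Finset.univ : Finset (Fin n)).map ⟨fun i => ({i} : Finset (Fin n)),
          Finset.singleton_injective⟩ := by
    ext S
    simp only [Finset.mem_filter, Finset.mem_univ, true_and, Finset.mem_map,
      Function.Embedding.coeFn_mk]
    rw [Finset.card_eq_one]
    constructor
    · rintro ⟨a, rfl⟩
      exact ⟨a, rfl⟩
    · rintro ⟨a, rfl⟩
      exact ⟨a, rfl⟩
  rw [h, Finset.sum_map]
  rfl

lemma oddRed_eval_zero {n : ℕ} (f : (Fin n → Bool) → ℝ) :
    (oddRed f).eval 0 = levelOne f := by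
  classical
  unfold oddRed levelOne
  rw [eval_finsetSum, Finset.sum_filter, ← sum_card_one]
  refine Finset.sum_congr rfl fun S _ => ?_
  by_cases hS : Odd S.card
  · rw [if_pos hS, eval_mul, eval_C, eval_pow, eval_X]
    by_cases h1 : S.card = 1
    · rw [if_pos h1, h1]
      simp
    · rw [if_neg h1]
      have hk : (S.card - 1) / 2 ≠ 0 := by
        obtain ⟨k, hk⟩ := hS
        omega
      rw [zero_pow hk, mul_zero]
  · rw [if_neg hS]
    have h1 : S.card ≠ 1 := fun h => hS (by rw [h]; exact odd_one)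
    rw [if_neg h1]

lemma oddRed_natDegree {n d m : ℕ} (f : (Fin n → Bool) → ℝ) (hd : DegLE f d) (hm : Odd m)
    (hdm : d ≤ m + 1) : 2 * (oddRed f).natDegree + 1 ≤ m := by
  classical
  have h : (oddRed f).natDegree ≤ (m - 1) / 2 := by
    unfold oddRed
    refine Polynomial.natDegree_sum_le_of_forall_le _ _ fun S hS => ?_
    have hodd : Odd S.card := (Finset.mem_filter.mp hS).2
    by_cases h0 : fourier f S = 0
    · rw [h0]
      simp
    · have hle : S.card ≤ d := by
        by_contra hlt
        exact h0 (hd S (by omega))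
      refine le_trans (Polynomial.natDegree_C_mul_X_pow_le _ _) ?_
      obtain ⟨k, hk⟩ := hodd
      obtain ⟨j, hj⟩ := hm
      omega
  obtain ⟨j, hj⟩ := hm
  omega

/-- The level-one sum of a Boolean function of degree at most `d`, for odd `m` with `d ≤ m + 1`:
`W^2 ≤ m^2 - a (2 - a) / s^2`, `s = sin (π / (2 m))`, `a = (1 - s)^(2 d)`. -/
theorem levelOne_sq_le {n d m : ℕ} (f : (Fin n → Bool) → ℝ) (hf : IsBoolean f) (hd : DegLE f d)
    (hd1 : 1 ≤ d) (hm : Odd m) (hdm : d ≤ m + 1) :
    (levelOne f) ^ 2 ≤ (m : ℝ) ^ 2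
      - (1 - Real.sin (Real.pi / (2 * m))) ^ (2 * d)
          * (2 - (1 - Real.sin (Real.pi / (2 * m))) ^ (2 * d))
        / (Real.sin (Real.pi / (2 * m))) ^ 2 := by
  have hm1 : 1 ≤ m := by
    obtain ⟨j, hj⟩ := hm
    omega
  have hmR : (1 : ℝ) ≤ m := by exact_mod_cast hm1
  set s : ℝ := Real.sin (Real.pi / (2 * m)) with hs
  set a : ℝ := (1 - s) ^ (2 * d) with ha
  have hfd : IsBoolean (dual f) := isBoolean_dual f hf
  have hdd : DegLE (dual f) d := degLE_dual f hd
  have hang0 : 0 < Real.pi / (2 * m) := by positivity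
  have hang1 : Real.pi / (2 * m) ≤ Real.pi / 2 := by
    rw [div_le_div_iff₀ (by positivity) (by norm_num)]
    nlinarith [Real.pi_pos]
  have hs0 : 0 < s := Real.sin_pos_of_pos_of_lt_pi hang0 (by linarith [Real.pi_pos])
  have hs1 : s ≤ 1 := Real.sin_le_one _
  have ha0 : 0 ≤ a := pow_nonneg (by linarith) _
  have ha1 : a ≤ 1 := pow_le_one₀ (by linarith) (by linarith)
  -- bounds on the odd part
  have hbd : ∀ x : ℝ, 0 ≤ x → x ≤ 1 → |(oddBias f).eval x| ≤ 1 := by
    intro x hx0 hx1
    rw [oddBias_eval]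
    have h1 := abs_le.mp (bias_abs_le_one f hf x hx0 hx1)
    have h2 := abs_le.mp (bias_abs_le_one (dual f) hfd x hx0 hx1)
    rw [abs_le]
    constructor <;> linarith [h1.1, h1.2, h2.1, h2.2]
  have hode : ∀ (σ : ℝ), (σ = 1 ∨ σ = -1) → ∀ t : ℝ, 0 ≤ t → t < 1 →
      (1 - t) * (σ * (derivative (oddBias f)).eval t)
        ≤ d * (1 - ((oddBias f).eval t) ^ 2) := by
    intro σ hσ t ht0 ht1
    have h1 := bias_ode f hf hd t ht0 ht1.le
    have h2 := bias_ode (dual f) hfd hdd t ht0 ht1.le
    rw [oddBias_derivative_eval, oddBias_eval]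
    have ht : 0 ≤ 1 - t := by linarith
    have hd0 : (0 : ℝ) ≤ d := Nat.cast_nonneg d
    have e1 := abs_le.mp (le_refl |(derivative (biasPoly f)).eval t|)
    have e2 := abs_le.mp (le_refl |(derivative (biasPoly (dual f))).eval t|)
    have hsq : (1 / 2 * ((biasPoly f).eval t + (biasPoly (dual f)).eval t)) ^ 2
        ≤ 1 / 2 * (((biasPoly f).eval t) ^ 2 + ((biasPoly (dual f)).eval t) ^ 2) := by
      nlinarith [sq_nonneg ((biasPoly f).eval t - (biasPoly (dual f)).eval t)]
    have hlin : (1 - t) * (σ * (1 / 2 * ((derivative (biasPoly f)).eval t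
          + (derivative (biasPoly (dual f))).eval t)))
        ≤ 1 / 2 * ((1 - t) * |(derivative (biasPoly f)).eval t|
          + (1 - t) * |(derivative (biasPoly (dual f))).eval t|) := by
      rcases hσ with rfl | rfl <;> nlinarith [e1.1, e1.2, e2.1, e2.2]
    nlinarith
  have hQ0 : (oddBias f).eval 0 = 0 := by
    rw [oddBias_eq]
    ring
  -- the value at the node
  have hnode : ((oddBias f).eval s) ^ 2 ≤ (1 - a) ^ 2 := by
    rcases lt_or_eq_of_le hs1 with hlt | heq
    · have u1 := Upper.ode_bound (oddBias f) d hQ0 (fun t ht0 ht1 => by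
        have := hode 1 (Or.inl rfl) t ht0 ht1
        simpa using this) s hs0.le hlt
      have u2 := Upper.ode_bound (-(oddBias f)) d (by simp [hQ0]) (fun t ht0 ht1 => by
        have := hode (-1) (Or.inr rfl) t ht0 ht1
        simpa using this) s hs0.le hlt
      rw [eval_neg] at u2
      rw [← ha] at u1 u2
      nlinarith
    · have ha' : a = 0 := by
        rw [ha, heq]
        simp
        omega
      rw [ha']
      have := abs_le.mp (hbd s hs0.le hs1)
      nlinarith [this.1, this.2]
  have hr := oddRed_natDegree f hd hm hdm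
  have hch := Upper.cheb_center_bound m (oddRed f) hr (fun x hx0 hx1 => by
    rw [← oddBias_eq]
    exact hbd x hx0 hx1)
  rw [← hs, ← oddBias_eq, oddRed_eval_zero] at hch
  have hs2 : 0 < s ^ 2 := by positivity
  have hfrac : a * (2 - a) / s ^ 2 ≤ (1 - ((oddBias f).eval s) ^ 2) / s ^ 2 := by
    apply div_le_div_of_nonneg_right _ hs2.le
    nlinarith
  linarith

end Vale.Agent.Lib.P047
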