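import Vale.Agent.Lib.P047.Upper.Main

/-!
# P047: numerical form of the improved upper bound
-/

namespace Vale.Agent.Lib.P047

open Finset

/-- A lower bound for `(1 - sin (π / (2 m)))^(2 d)` that is uniform in `m ≥ 3`, `d ≤ m + 1`. -/
lemma pow_node_lower (m d : ℕ) (hm : 3 ≤ m) (hdm : d ≤ m + 1) :
    (1 - Real.pi / 6) ^ 8 ≤ (1 - Real.sin (Real.pi / (2 * m))) ^ (2 * d) := by
  have hmR : (3 : ℝ) ≤ m := by exact_mod_cast hm
  have hpi3 := Real.pi_gt_three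
  have hpi4 := Real.pi_lt_four
  have hm0 : (0 : ℝ) < 2 * m := by linarith
  set b : ℝ := 1 - Real.pi / (2 * m) with hb
  have hang : Real.pi / (2 * m) ≤ Real.pi / 6 :=
    div_le_div_of_nonneg_left Real.pi_pos.le (by norm_num) (by linarith)
  have hang0 : 0 ≤ Real.pi / (2 * m) := by positivity
  have hc0 : 0 < 1 - Real.pi / 6 := by linarith
  have hb_ge : 1 - Real.pi / 6 ≤ b := by rw [hb]; linarith
  have hb0 : 0 < b := lt_of_lt_of_le hc0 hb_ge
  have hb1 : b ≤ 1 := by rw [hb]; linarith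
  have hs : Real.sin (Real.pi / (2 * m)) ≤ Real.pi / (2 * m) := Real.sin_le hang0
  have h1 : b ≤ 1 - Real.sin (Real.pi / (2 * m)) := by rw [hb]; linarith
  have hbern : 1 - Real.pi / 6 ≤ b ^ ((m : ℝ) / 3) := by
    have h := one_add_mul_self_le_rpow_one_add (s := -(Real.pi / (2 * m)))
      (by linarith) (p := (m : ℝ) / 3) (by linarith)
    have e1 : 1 + (m : ℝ) / 3 * -(Real.pi / (2 * m)) = 1 - Real.pi / 6 := by
      field_simp
      ring
    have e2 : 1 + -(Real.pi / (2 * m)) = b := by rw [hb]; ring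
    rw [e1, e2] at h
    exact h
  have hbm : (1 - Real.pi / 6) ^ 3 ≤ b ^ m := by
    calc (1 - Real.pi / 6) ^ 3 ≤ (b ^ ((m : ℝ) / 3)) ^ 3 := pow_le_pow_left₀ hc0.le hbern 3
      _ = b ^ m := by
          rw [← Real.rpow_natCast, ← Real.rpow_mul hb0.le]
          have : (m : ℝ) / 3 * ((3 : ℕ) : ℝ) = m := by push_cast; ring
          rw [this, Real.rpow_natCast]
  calc (1 - Real.pi / 6) ^ 8 = ((1 - Real.pi / 6) ^ 3) ^ 2 * (1 - Real.pi / 6) ^ 2 := by ring
    _ ≤ (b ^ m) ^ 2 * b ^ 2 := by gcongr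
    _ = b ^ (2 * m + 2) := by ring
    _ ≤ b ^ (2 * d) := pow_le_pow_of_le_one hb0.le hb1 (by omega)
    _ ≤ (1 - Real.sin (Real.pi / (2 * m))) ^ (2 * d) := pow_le_pow_left₀ hb0.le h1 _

lemma node_const_lower : (265 / 100000 : ℝ) ≤ (1 - Real.pi / 6) ^ 8 := by
  have hpi := Real.pi_lt_d4
  have h : (0.4764 : ℝ) ≤ 1 - Real.pi / 6 := by linarith
  calc (265 / 100000 : ℝ) ≤ (0.4764 : ℝ) ^ 8 := by norm_num
    _ ≤ (1 - Real.pi / 6) ^ 8 := pow_le_pow_left₀ (by norm_num) h 8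

/-- The uniform form: for `m ≥ 3` odd and `d ≤ m + 1` the level-one sum is at most
`(999/1000) m`. -/
lemma levelOne_le_of_three_le {n d m : ℕ} (f : (Fin n → Bool) → ℝ) (hf : IsBoolean f)
    (hd : DegLE f d) (hd1 : 1 ≤ d) (hm : Odd m) (hm3 : 3 ≤ m) (hdm : d ≤ m + 1) :
    levelOne f ≤ 999 / 1000 * m := by
  have hmain := levelOne_sq_le f hf hd hd1 hm hdm
  have hmR : (3 : ℝ) ≤ m := by exact_mod_cast hm3
  set s : ℝ := Real.sin (Real.pi / (2 * m)) with hs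
  set a : ℝ := (1 - s) ^ (2 * d) with ha
  have hang0 : 0 < Real.pi / (2 * m) := by positivity
  have hs0 : 0 < s := Real.sin_pos_of_pos_of_lt_pi hang0 (by
    have : Real.pi / (2 * m) ≤ Real.pi / 6 :=
      div_le_div_of_nonneg_left Real.pi_pos.le (by norm_num) (by linarith)
    linarith [Real.pi_pos])
  have hs1 : s ≤ 1 := Real.sin_le_one _
  have hsle : s ≤ Real.pi / (2 * m) := Real.sin_le hang0.le
  have ha1 : a ≤ 1 := pow_le_one₀ (by linarith) (by linarith)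
  have ha0 : (265 / 100000 : ℝ) ≤ a := le_trans node_const_lower (pow_node_lower m d hm3 hdm)
  have hnum : (529 / 100000 : ℝ) ≤ a * (2 - a) := by nlinarith
  have hpi := Real.pi_lt_d4
  have hpi0 := Real.pi_pos
  have hs2 : s ^ 2 ≤ (Real.pi / (2 * m)) ^ 2 := pow_le_pow_left₀ hs0.le hsle 2
  have hs2' : s ^ 2 ≤ 2468 / 1000 / (m : ℝ) ^ 2 := by
    refine le_trans hs2 ?_
    rw [div_pow, div_le_div_iff₀ (by positivity) (by positivity)]
    have : Real.pi ^ 2 ≤ 3.1416 ^ 2 := pow_le_pow_left₀ hpi0.le hpi.le 2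
    nlinarith [sq_nonneg (m : ℝ)]
  have hs2pos : 0 < s ^ 2 := by positivity
  have hgain : 2 / 1000 * (m : ℝ) ^ 2 ≤ a * (2 - a) / s ^ 2 := by
    rw [le_div_iff₀ hs2pos]
    have hm2 : 0 < (m : ℝ) ^ 2 := by positivity
    have h1 : s ^ 2 * (m : ℝ) ^ 2 ≤ 2468 / 1000 := by
      rw [le_div_iff₀ hm2] at hs2'
      exact hs2'
    nlinarith
  have hsq : (levelOne f) ^ 2 ≤ (999 / 1000 * (m : ℝ)) ^ 2 := by
    have : (levelOne f) ^ 2 ≤ (m : ℝ) ^ 2 - 2 / 1000 * (m : ℝ) ^ 2 := by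
      linarith
    nlinarith [sq_nonneg (m : ℝ)]
  exact le_of_abs_le (abs_le_of_sq_le_sq hsq (by positivity))

/-- The level-one sum of a Boolean function of degree at most `d ≥ 2` is at most
`(999/1000) d`. -/
theorem levelOne_le_uniform {n d : ℕ} (f : (Fin n → Bool) → ℝ) (hf : IsBoolean f)
    (hd : DegLE f d) (hd2 : 2 ≤ d) : levelOne f ≤ 999 / 1000 * d := by
  obtain ⟨m, hm, hmd, hdm⟩ : ∃ m : ℕ, Odd m ∧ m ≤ d ∧ d ≤ m + 1 := by
    rcases Nat.even_or_odd d with he | ho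
    · obtain ⟨k, hk⟩ := he
      exact ⟨d - 1, ⟨k - 1, by omega⟩, by omega, by omega⟩
    · exact ⟨d, ho, le_refl d, by omega⟩
  have hmdR : (m : ℝ) ≤ d := by exact_mod_cast hmd
  by_cases hm3 : 3 ≤ m
  · have h := levelOne_le_of_three_le f hf hd (by omega) hm hm3 hdm
    linarith
  · have hm1 : m = 1 := by
      obtain ⟨j, hj⟩ := hm
      omega
    subst hm1
    have hmain := levelOne_sq_le f hf hd (by omega) hm hdm
    have hs : Real.sin (Real.pi / (2 * ((1 : ℕ) : ℝ))) = 1 := by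
      have h2 : Real.pi / (2 * ((1 : ℕ) : ℝ)) = Real.pi / 2 := by norm_num
      rw [h2, Real.sin_pi_div_two]
    have h0 : ((1 : ℝ) - 1) ^ (2 * d) = 0 := by
      rw [sub_self]
      exact zero_pow (by omega)
    rw [hs, h0] at hmain
    have hsq : (levelOne f) ^ 2 ≤ 1 ^ 2 := by simpa using hmain
    have h1 : levelOne f ≤ 1 := le_of_abs_le (abs_le_of_sq_le_sq hsq (by norm_num))
    have hd2R : (2 : ℝ) ≤ d := by exact_mod_cast hd2
    linarith

end Vale.Agent.Lib.P047
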