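import Vale.Agent.Lib.P047.Inversion

/-!
P047: Plancherel on the cube and the bound of the level-one Fourier weight of a Boolean
function of degree at most `d` by `d` times its variance.
-/

namespace Vale.Agent.Lib.P047

open Finset

/-- Plancherel identity on the cube. -/
lemma par_plancherel {n : ℕ} (f h : (Fin n → Bool) → ℝ) :
    (∑ x : Fin n → Bool, f x * h x) / 2 ^ n
      = ∑ S : Finset (Fin n), fourier f S * fourier h S := by
  classical
  have h1 : ∑ x : Fin n → Bool, f x * h x
      = ∑ S : Finset (Fin n), fourier f S * ∑ x : Fin n → Bool, h x * chi S x := by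
    calc ∑ x : Fin n → Bool, f x * h x
        = ∑ x : Fin n → Bool, (∑ S : Finset (Fin n), fourier f S * chi S x) * h x := by
          refine Finset.sum_congr rfl fun x _ => ?_
          rw [← fourier_inversion f x]
      _ = ∑ S : Finset (Fin n), fourier f S * ∑ x : Fin n → Bool, h x * chi S x := by
          simp_rw [Finset.sum_mul, Finset.mul_sum]
          rw [Finset.sum_comm]
          refine Finset.sum_congr rfl fun S _ => Finset.sum_congr rfl fun x _ => by ring
  rw [h1, Finset.sum_div]
  refine Finset.sum_congr rfl fun S _ => ?_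
  have h2 : fourier h S = (∑ x : Fin n → Bool, h x * chi S x) / 2 ^ n := rfl
  rw [h2]
  ring

/-- Fourier coefficients of the function with the coordinate `i` flipped. -/
lemma par_fourier_flip {n : ℕ} (g : (Fin n → Bool) → ℝ) (i : Fin n) (S : Finset (Fin n)) :
    fourier (fun x => g (flip i x)) S = if i ∈ S then - fourier g S else fourier g S := by
  classical
  unfold fourier
  have key : ∑ x : Fin n → Bool, g (flip i x) * chi S x
      = ∑ x : Fin n → Bool, g x * chi S (flip i x) := by
    refine Fintype.sum_equiv ⟨flip i, flip i, flip_flip i, flip_flip i⟩ _ _ ?_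
    intro x
    show g (flip i x) * chi S x = g (flip i x) * chi S (flip i (flip i x))
    rw [flip_flip]
  rw [key]
  by_cases hi : i ∈ S
  · rw [if_pos hi]
    have h1 : ∑ x : Fin n → Bool, g x * chi S (flip i x)
        = - ∑ x : Fin n → Bool, g x * chi S x := by
      rw [← Finset.sum_neg_distrib]
      refine Finset.sum_congr rfl fun x _ => ?_
      rw [chi_flip, if_pos hi]
      ring
    rw [h1]
    ring
  · rw [if_neg hi]
    have h1 : ∑ x : Fin n → Bool, g x * chi S (flip i x)
        = ∑ x : Fin n → Bool, g x * chi S x := by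
      refine Finset.sum_congr rfl fun x _ => ?_
      rw [chi_flip, if_neg hi]
    rw [h1]

/-- The number of points of the cube, as a real number. -/
lemma par_card_cube (n : ℕ) : ∑ _x : Fin n → Bool, (1 : ℝ) = 2 ^ n := by
  simp

/-- Parseval for a Boolean function. -/
lemma par_parseval {n : ℕ} (g : (Fin n → Bool) → ℝ) (hg : IsBoolean g) :
    ∑ S : Finset (Fin n), (fourier g S) ^ 2 = 1 := by
  have h1 := par_plancherel g g
  have h2 : ∑ x : Fin n → Bool, g x * g x = 2 ^ n := by
    rw [← par_card_cube n]
    refine Finset.sum_congr rfl fun x _ => ?_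
    rcases hg x with h | h <;> rw [h] <;> norm_num
  rw [h2] at h1
  have h3 : (2 : ℝ) ^ n ≠ 0 := by positivity
  rw [div_self h3] at h1
  rw [h1]
  refine Finset.sum_congr rfl fun S _ => ?_
  ring

/-- The correlation of `g` with its flip, on the Fourier side. -/
lemma par_flip_corr {n : ℕ} (g : (Fin n → Bool) → ℝ) (i : Fin n) :
    (∑ x : Fin n → Bool, g x * g (flip i x)) / 2 ^ n
      = ∑ S : Finset (Fin n), (fourier g S) ^ 2 * (if i ∈ S then -1 else 1) := by
  rw [par_plancherel g (fun x => g (flip i x))]
  refine Finset.sum_congr rfl fun S _ => ?_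
  rw [par_fourier_flip]
  split_ifs <;> ring

/-- Pointwise bound used for the level-one coefficient. -/
lemma par_pointwise (a b s : ℝ) (ha : a = 1 ∨ a = -1) (hb : b = 1 ∨ b = -1)
    (hs : s = 1 ∨ s = -1) : |(a - b) * s| ≤ 1 - a * b := by
  rcases ha with ha | ha <;> rcases hb with hb | hb <;> rcases hs with hs | hs <;>
    rw [ha, hb, hs] <;> norm_num

lemma par_sgn_cases (b : Bool) : sgn b = 1 ∨ sgn b = -1 := by
  cases b <;> simp [sgn]

/-- The level-one coefficient is at most the influence. -/
lemma par_abs_le_inf {n : ℕ} (g : (Fin n → Bool) → ℝ) (hg : IsBoolean g) (i : Fin n) :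
    |fourier g {i}| ≤ ∑ S : Finset (Fin n), (if i ∈ S then (fourier g S) ^ 2 else 0) := by
  classical
  have h3 : (0 : ℝ) < 2 ^ n := by positivity
  -- two expressions of the coefficient
  have e1 : fourier g {i} = (∑ x : Fin n → Bool, g x * sgn (x i)) / 2 ^ n := by
    unfold fourier
    congr 1
    refine Finset.sum_congr rfl fun x _ => ?_
    rw [chi_singleton]
  have e2 : fourier g {i} = (∑ x : Fin n → Bool, - (g (flip i x) * sgn (x i))) / 2 ^ n := by
    have h := par_fourier_flip g i {i}
    rw [if_pos (Finset.mem_singleton_self i)] at h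
    have h' : fourier g {i} = - fourier (fun x => g (flip i x)) {i} := by rw [h]; ring
    rw [h']
    unfold fourier
    rw [← neg_div, ← Finset.sum_neg_distrib]
    congr 1
    refine Finset.sum_congr rfl fun x _ => ?_
    rw [chi_singleton]
  have e3 : 2 * fourier g {i}
      = (∑ x : Fin n → Bool, (g x - g (flip i x)) * sgn (x i)) / 2 ^ n := by
    have : 2 * fourier g {i} = fourier g {i} + fourier g {i} := by ring
    rw [this]
    nth_rewrite 1 [e1]
    rw [e2, ← add_div, ← Finset.sum_add_distrib]
    congr 1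
    refine Finset.sum_congr rfl fun x _ => ?_
    ring
  have b1 : |∑ x : Fin n → Bool, (g x - g (flip i x)) * sgn (x i)|
      ≤ ∑ x : Fin n → Bool, (1 - g x * g (flip i x)) := by
    refine le_trans (Finset.abs_sum_le_sum_abs _ _) ?_
    refine Finset.sum_le_sum fun x _ => ?_
    exact par_pointwise _ _ _ (hg x) (hg (flip i x)) (par_sgn_cases (x i))
  have b2 : ∑ x : Fin n → Bool, (1 - g x * g (flip i x))
      = 2 ^ n - ∑ x : Fin n → Bool, g x * g (flip i x) := by
    rw [Finset.sum_sub_distrib, par_card_cube]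
  have b3 : |2 * fourier g {i}| ≤ 1 - (∑ x : Fin n → Bool, g x * g (flip i x)) / 2 ^ n := by
    rw [e3, abs_div, abs_of_pos h3, div_le_iff₀ h3]
    have : (1 - (∑ x : Fin n → Bool, g x * g (flip i x)) / 2 ^ n) * 2 ^ n
        = 2 ^ n - ∑ x : Fin n → Bool, g x * g (flip i x) := by
      field_simp
    rw [this, ← b2]
    exact b1
  rw [par_flip_corr g i] at b3
  have hp := par_parseval g hg
  have b4 : (1 : ℝ) - ∑ S : Finset (Fin n), (fourier g S) ^ 2 * (if i ∈ S then -1 else 1)
      = 2 * ∑ S : Finset (Fin n), (if i ∈ S then (fourier g S) ^ 2 else 0) := by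
    calc (1 : ℝ) - ∑ S : Finset (Fin n), (fourier g S) ^ 2 * (if i ∈ S then -1 else 1)
        = ∑ S : Finset (Fin n), (fourier g S) ^ 2
            - ∑ S : Finset (Fin n), (fourier g S) ^ 2 * (if i ∈ S then -1 else 1) := by
          rw [hp]
      _ = ∑ S : Finset (Fin n), ((fourier g S) ^ 2
            - (fourier g S) ^ 2 * (if i ∈ S then -1 else 1)) := by
          rw [Finset.sum_sub_distrib]
      _ = ∑ S : Finset (Fin n), 2 * (if i ∈ S then (fourier g S) ^ 2 else 0) := by
          refine Finset.sum_congr rfl fun S _ => ?_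
          split_ifs <;> ring
      _ = 2 * ∑ S : Finset (Fin n), (if i ∈ S then (fourier g S) ^ 2 else 0) := by
          rw [Finset.mul_sum]
  rw [b4, abs_mul, abs_of_pos (by norm_num : (0 : ℝ) < 2)] at b3
  linarith

/-- Total influence on the Fourier side. -/
lemma par_sum_inf {n : ℕ} (c : Finset (Fin n) → ℝ) :
    ∑ i : Fin n, ∑ S : Finset (Fin n), (if i ∈ S then c S else 0)
      = ∑ S : Finset (Fin n), (S.card : ℝ) * c S := by
  classical
  rw [Finset.sum_comm]
  refine Finset.sum_congr rfl fun S _ => ?_
  rw [Finset.sum_ite_mem, Finset.univ_inter, Finset.sum_const, nsmul_eq_mul]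

theorem sum_abs_fourier_singleton_le {n d : ℕ} (g : (Fin n → Bool) → ℝ) (hg : IsBoolean g)
    (hd : DegLE g d) :
    ∑ i : Fin n, |fourier g {i}| ≤ d * (1 - (fourier g ∅) ^ 2) := by
  classical
  have s1 : ∑ i : Fin n, |fourier g {i}|
      ≤ ∑ S : Finset (Fin n), (S.card : ℝ) * (fourier g S) ^ 2 := by
    rw [← par_sum_inf (fun S => (fourier g S) ^ 2)]
    exact Finset.sum_le_sum fun i _ => par_abs_le_inf g hg i
  have s2 : ∑ S : Finset (Fin n), (S.card : ℝ) * (fourier g S) ^ 2
      ≤ ∑ S : Finset (Fin n), (d : ℝ) * ((fourier g S) ^ 2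
          - (if S = ∅ then (fourier g S) ^ 2 else 0)) := by
    refine Finset.sum_le_sum fun S _ => ?_
    by_cases hS : S = ∅
    · rw [if_pos hS, hS]
      simp
    · rw [if_neg hS, sub_zero]
      by_cases hc : S.card ≤ d
      · have hc' : (S.card : ℝ) ≤ (d : ℝ) := by exact_mod_cast hc
        exact mul_le_mul_of_nonneg_right hc' (sq_nonneg _)
      · have h0 : fourier g S = 0 := hd S (by omega)
        rw [h0]
        simp
  have s3 : ∑ S : Finset (Fin n), (d : ℝ) * ((fourier g S) ^ 2
          - (if S = ∅ then (fourier g S) ^ 2 else 0))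
      = d * (1 - (fourier g ∅) ^ 2) := by
    rw [← Finset.mul_sum, Finset.sum_sub_distrib, par_parseval g hg, Finset.sum_ite_eq']
    simp
  linarith

end Vale.Agent.Lib.P047
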