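import Vale.Agent.Lib.P047.OddLift
import Vale.Agent.Lib.P047.Upper.Parseval

/-!
# P047: the bias polynomial of a Boolean function and its differential inequality

For `f` on the cube, `biasPoly f = ∑_S f^(S) X^|S|`; its value at `t` is the mean of `f` under the
product measure whose coordinates have mean `t`. Restricting a random set `R` of coordinates to
the value `+1` (each coordinate independently with probability `t`) expresses `P(t)` and
`(1 - t) P'(t)` as averages of the mean and of the level-one sum of the restricted functions, and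
the bound `∑_i |g^(i)| ≤ d (1 - g^(∅)^2)` for each restriction gives
`(1 - t) |P'(t)| ≤ d (1 - P(t)^2)` on `[0, 1]`.
-/

namespace Vale.Agent.Lib.P047

open Finset Polynomial

/-- The bias polynomial `P_f = ∑_S f^(S) X^|S|`. -/
noncomputable def biasPoly {n : ℕ} (f : (Fin n → Bool) → ℝ) : ℝ[X] :=
  ∑ S : Finset (Fin n), C (fourier f S) * X ^ S.card

lemma biasPoly_eval {n : ℕ} (f : (Fin n → Bool) → ℝ) (t : ℝ) :
    (biasPoly f).eval t = ∑ S : Finset (Fin n), fourier f S * t ^ S.card := by
  simp [biasPoly, eval_finsetSum]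

lemma biasPoly_derivative_eval {n : ℕ} (f : (Fin n → Bool) → ℝ) (t : ℝ) :
    (derivative (biasPoly f)).eval t
      = ∑ S : Finset (Fin n), fourier f S * ((S.card : ℝ) * t ^ (S.card - 1)) := by
  unfold biasPoly
  rw [derivative_sum, eval_finsetSum]
  refine Finset.sum_congr rfl fun S _ => ?_
  rw [derivative_C_mul, derivative_X_pow, eval_mul, eval_C, eval_mul, eval_C, eval_pow, eval_X]

/-- The restriction of `f` obtained by setting the coordinates in `R` to `+1` (`false`); it is
regarded as a function on the same cube that ignores the coordinates in `R`. -/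
def restr {n : ℕ} (R : Finset (Fin n)) (f : (Fin n → Bool) → ℝ) : (Fin n → Bool) → ℝ :=
  fun x => f (fun i => if i ∈ R then false else x i)

lemma isBoolean_restr {n : ℕ} (R : Finset (Fin n)) (f : (Fin n → Bool) → ℝ) (hf : IsBoolean f) :
    IsBoolean (restr R f) := fun _ => hf _

lemma chi_restr {n : ℕ} (R U : Finset (Fin n)) (x : Fin n → Bool) :
    chi U (fun i => if i ∈ R then false else x i) = chi (U \ R) x := by
  classical
  unfold chi
  rw [← Finset.prod_filter_mul_prod_filter_not U (fun i => i ∈ R)]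
  have h1 : ∏ i ∈ U.filter (fun i => i ∈ R), sgn (if i ∈ R then false else x i) = 1 := by
    refine Finset.prod_eq_one fun i hi => ?_
    rw [if_pos (Finset.mem_filter.mp hi).2]
    simp [sgn]
  have h2 : U.filter (fun i => ¬ i ∈ R) = U \ R := by
    ext i
    simp [Finset.mem_sdiff]
  rw [h1, one_mul, h2]
  refine Finset.prod_congr rfl fun i hi => ?_
  have hiR : i ∉ R := (Finset.mem_sdiff.mp hi).2
  simp [hiR]

lemma fourier_linear {n : ℕ} {ι : Type*} (s : Finset ι) (c : ι → ℝ)
    (h : ι → (Fin n → Bool) → ℝ) (S : Finset (Fin n)) :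
    fourier (fun x => ∑ U ∈ s, c U * h U x) S = ∑ U ∈ s, c U * fourier (h U) S := by
  unfold fourier
  have h1 : ∑ x : Fin n → Bool, (∑ U ∈ s, c U * h U x) * chi S x
      = ∑ U ∈ s, c U * ∑ x : Fin n → Bool, h U x * chi S x := by
    simp_rw [Finset.sum_mul, Finset.mul_sum]
    rw [Finset.sum_comm]
    refine Finset.sum_congr rfl fun U _ => Finset.sum_congr rfl fun x _ => by ring
  rw [h1, Finset.sum_div]
  refine Finset.sum_congr rfl fun U _ => by ring

/-- Fourier coefficients of a restriction. -/
lemma fourier_restr {n : ℕ} (R : Finset (Fin n)) (f : (Fin n → Bool) → ℝ) (S : Finset (Fin n)) :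
    fourier (restr R f) S = ∑ U : Finset (Fin n), if U \ R = S then fourier f U else 0 := by
  classical
  have h : restr R f = fun x => ∑ U : Finset (Fin n), fourier f U * chi (U \ R) x := by
    funext x
    unfold restr
    rw [fourier_inversion f]
    refine Finset.sum_congr rfl fun U _ => ?_
    rw [chi_restr]
  rw [h, fourier_linear]
  refine Finset.sum_congr rfl fun U _ => ?_
  rw [fourier_chi]
  split_ifs <;> simp

lemma degLE_restr {n d : ℕ} (R : Finset (Fin n)) (f : (Fin n → Bool) → ℝ) (hd : DegLE f d) :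
    DegLE (restr R f) d := by
  classical
  intro S hS
  rw [fourier_restr]
  refine Finset.sum_eq_zero fun U _ => ?_
  split_ifs with h
  · refine hd U (lt_of_lt_of_le hS ?_)
    rw [← h]
    exact Finset.card_le_card Finset.sdiff_subset
  · rfl

/-- The weight of the set `R` of restricted coordinates under the product measure. -/
noncomputable def wt {n : ℕ} (t : ℝ) (R : Finset (Fin n)) : ℝ :=
  ∏ i : Fin n, if i ∈ R then t else 1 - t

lemma wt_nonneg {n : ℕ} {t : ℝ} (ht0 : 0 ≤ t) (ht1 : t ≤ 1) (R : Finset (Fin n)) :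
    0 ≤ wt t R := by
  unfold wt
  refine Finset.prod_nonneg fun i _ => ?_
  split_ifs
  · exact ht0
  · linarith

/-- The total weight of the sets that contain `A` and avoid `B`. -/
lemma sum_wt_constrained {n : ℕ} (t : ℝ) (A B : Finset (Fin n)) (hAB : Disjoint A B) :
    ∑ R : Finset (Fin n), (if A ⊆ R ∧ Disjoint R B then wt t R else 0)
      = t ^ A.card * (1 - t) ^ B.card := by
  classical
  have key : ∀ R : Finset (Fin n), (if A ⊆ R ∧ Disjoint R B then wt t R else 0)
      = (∏ i ∈ R, if i ∈ B then 0 else t) * ∏ i ∈ Finset.univ \ R, if i ∈ A then 0 else 1 - t := by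
    intro R
    split_ifs with h
    · obtain ⟨h1, h2⟩ := h
      have e1 : ∏ i ∈ R, (if i ∈ B then (0 : ℝ) else t) = ∏ i ∈ R, t := by
        refine Finset.prod_congr rfl fun i hi => ?_
        rw [if_neg (Finset.disjoint_left.mp h2 hi)]
      have e2 : ∏ i ∈ Finset.univ \ R, (if i ∈ A then (0 : ℝ) else 1 - t)
          = ∏ i ∈ Finset.univ \ R, (1 - t) := by
        refine Finset.prod_congr rfl fun i hi => ?_
        rw [if_neg (fun hA => (Finset.mem_sdiff.mp hi).2 (h1 hA))]
      rw [e1, e2]
      unfold wt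
      rw [← Finset.prod_filter_mul_prod_filter_not Finset.univ (fun i => i ∈ R)]
      congr 1
      · have : Finset.univ.filter (fun i => i ∈ R) = R := by ext i; simp
        rw [this]
        refine Finset.prod_congr rfl fun i hi => ?_
        rw [if_pos hi]
      · have : Finset.univ.filter (fun i => ¬ i ∈ R) = Finset.univ \ R := by ext i; simp
        rw [this]
        refine Finset.prod_congr rfl fun i hi => ?_
        rw [if_neg (Finset.mem_sdiff.mp hi).2]
    · rw [not_and_or] at h
      rcases h with h | h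
      · obtain ⟨i, hiA, hiR⟩ := Finset.not_subset.mp h
        have : ∏ i ∈ Finset.univ \ R, (if i ∈ A then (0 : ℝ) else 1 - t) = 0 :=
          Finset.prod_eq_zero (Finset.mem_sdiff.mpr ⟨Finset.mem_univ i, hiR⟩) (by rw [if_pos hiA])
        rw [this, mul_zero]
      · obtain ⟨i, hiR, hiB⟩ := Finset.not_disjoint_iff.mp h
        have : ∏ i ∈ R, (if i ∈ B then (0 : ℝ) else t) = 0 :=
          Finset.prod_eq_zero hiR (by rw [if_pos hiB])
        rw [this, zero_mul]
  simp_rw [key]
  rw [← Finset.powerset_univ, ← Finset.prod_add]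
  have e : ∀ i : Fin n, ((if i ∈ B then (0 : ℝ) else t) + if i ∈ A then 0 else 1 - t)
      = (if i ∈ A then t else 1) * (if i ∈ B then 1 - t else 1) := by
    intro i
    by_cases hA : i ∈ A
    · have hB : i ∉ B := Finset.disjoint_left.mp hAB hA
      simp [hA, hB]
    · by_cases hB : i ∈ B <;> simp [hA, hB]
  simp_rw [e]
  rw [Finset.prod_mul_distrib, Finset.prod_ite_mem, Finset.prod_ite_mem, Finset.univ_inter,
    Finset.univ_inter, Finset.prod_const, Finset.prod_const]

lemma sum_wt {n : ℕ} (t : ℝ) : ∑ R : Finset (Fin n), wt t R = 1 := by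
  have h := sum_wt_constrained (n := n) t ∅ ∅ (Finset.disjoint_empty_left _)
  simpa using h

lemma fourier_restr_empty {n : ℕ} (R : Finset (Fin n)) (f : (Fin n → Bool) → ℝ) :
    fourier (restr R f) ∅ = ∑ U : Finset (Fin n), if U ⊆ R then fourier f U else 0 := by
  classical
  rw [fourier_restr]
  refine Finset.sum_congr rfl fun U _ => ?_
  simp [Finset.sdiff_eq_empty_iff_subset]

/-- The bias polynomial is the average of the means of the restrictions. -/
lemma sum_wt_mean {n : ℕ} (f : (Fin n → Bool) → ℝ) (t : ℝ) :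
    ∑ R : Finset (Fin n), wt t R * fourier (restr R f) ∅ = (biasPoly f).eval t := by
  classical
  simp_rw [fourier_restr_empty, Finset.mul_sum]
  rw [Finset.sum_comm, biasPoly_eval]
  refine Finset.sum_congr rfl fun U _ => ?_
  have h := sum_wt_constrained t U ∅ (Finset.disjoint_empty_right _)
  rw [Finset.card_empty, pow_zero, mul_one] at h
  rw [← h, Finset.mul_sum]
  refine Finset.sum_congr rfl fun R _ => ?_
  by_cases hU : U ⊆ R
  · simp [hU, mul_comm]
  · simp [hU]

lemma sdiff_eq_singleton_iff {n : ℕ} (U R : Finset (Fin n)) (i : Fin n) :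
    U \ R = {i} ↔ i ∈ U ∧ (U.erase i ⊆ R ∧ Disjoint R {i}) := by
  classical
  constructor
  · intro h
    have hi : i ∈ U \ R := by rw [h]; exact Finset.mem_singleton_self i
    refine ⟨(Finset.mem_sdiff.mp hi).1, ?_, ?_⟩
    · intro j hj
      by_contra hjR
      have hj2 : j ∈ U \ R := Finset.mem_sdiff.mpr ⟨Finset.mem_of_mem_erase hj, hjR⟩
      rw [h, Finset.mem_singleton] at hj2
      exact (Finset.ne_of_mem_erase hj) hj2
    · rw [Finset.disjoint_singleton_right]
      exact (Finset.mem_sdiff.mp hi).2
  · rintro ⟨hiU, hsub, hdis⟩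
    rw [Finset.disjoint_singleton_right] at hdis
    ext j
    rw [Finset.mem_sdiff, Finset.mem_singleton]
    constructor
    · rintro ⟨hjU, hjR⟩
      by_contra hne
      exact hjR (hsub (Finset.mem_erase.mpr ⟨hne, hjU⟩))
    · rintro rfl
      exact ⟨hiU, hdis⟩

/-- `(1 - t) P'(t)` is the average of the level-one sums of the restrictions. -/
lemma sum_wt_levelOne {n : ℕ} (f : (Fin n → Bool) → ℝ) (t : ℝ) :
    ∑ R : Finset (Fin n), wt t R * levelOne (restr R f)
      = (1 - t) * (derivative (biasPoly f)).eval t := by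
  classical
  have step : ∀ (U : Finset (Fin n)) (i : Fin n),
      ∑ R : Finset (Fin n), wt t R * (if U \ R = {i} then fourier f U else 0)
        = if i ∈ U then fourier f U * (t ^ (U.card - 1) * (1 - t)) else 0 := by
    intro U i
    by_cases hi : i ∈ U
    · rw [if_pos hi]
      have h := sum_wt_constrained t (U.erase i) {i}
        (by rw [Finset.disjoint_singleton_right]; exact Finset.notMem_erase i U)
      rw [Finset.card_erase_of_mem hi, Finset.card_singleton, pow_one] at h
      rw [← h, Finset.mul_sum]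
      refine Finset.sum_congr rfl fun R _ => ?_
      by_cases hc : U \ R = {i}
      · rw [if_pos hc, if_pos ((sdiff_eq_singleton_iff U R i).mp hc).2]
        ring
      · rw [if_neg hc, if_neg (fun h' => hc ((sdiff_eq_singleton_iff U R i).mpr ⟨hi, h'⟩))]
        ring
    · rw [if_neg hi]
      refine Finset.sum_eq_zero fun R _ => ?_
      rw [if_neg (fun hc => hi ((sdiff_eq_singleton_iff U R i).mp hc).1), mul_zero]
  have e1 : ∀ R : Finset (Fin n), wt t R * levelOne (restr R f)
      = ∑ i : Fin n, ∑ U : Finset (Fin n),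
          wt t R * (if U \ R = {i} then fourier f U else 0) := by
    intro R
    unfold levelOne
    rw [Finset.mul_sum]
    refine Finset.sum_congr rfl fun i _ => ?_
    rw [fourier_restr, Finset.mul_sum]
  simp_rw [e1]
  rw [Finset.sum_comm]
  have e2 : ∀ i : Fin n, ∑ R : Finset (Fin n), ∑ U : Finset (Fin n),
        wt t R * (if U \ R = {i} then fourier f U else 0)
      = ∑ U : Finset (Fin n), if i ∈ U then fourier f U * (t ^ (U.card - 1) * (1 - t)) else 0 := by
    intro i
    rw [Finset.sum_comm]
    exact Finset.sum_congr rfl fun U _ => step U i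
  simp_rw [e2]
  rw [Finset.sum_comm, biasPoly_derivative_eval, Finset.mul_sum]
  refine Finset.sum_congr rfl fun U _ => ?_
  rw [Finset.sum_ite_mem, Finset.univ_inter, Finset.sum_const, nsmul_eq_mul]
  ring

lemma abs_fourier_empty_le_one {n : ℕ} (g : (Fin n → Bool) → ℝ) (hg : IsBoolean g) :
    |fourier g ∅| ≤ 1 := by
  unfold fourier
  rw [abs_div, abs_of_pos (by positivity : (0 : ℝ) < 2 ^ n), div_le_one (by positivity)]
  calc |∑ x : Fin n → Bool, g x * chi ∅ x| ≤ ∑ x : Fin n → Bool, |g x * chi ∅ x| :=
        Finset.abs_sum_le_sum_abs _ _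
    _ = ∑ x : Fin n → Bool, (1 : ℝ) := by
        refine Finset.sum_congr rfl fun x _ => ?_
        rw [chi_empty, mul_one]
        rcases hg x with h | h <;> simp [h]
    _ = 2 ^ n := by simp

/-- The bias polynomial of a Boolean function is bounded by `1` on `[0, 1]`. -/
theorem bias_abs_le_one {n : ℕ} (f : (Fin n → Bool) → ℝ) (hf : IsBoolean f) (t : ℝ)
    (ht0 : 0 ≤ t) (ht1 : t ≤ 1) : |(biasPoly f).eval t| ≤ 1 := by
  rw [← sum_wt_mean f t]
  calc |∑ R : Finset (Fin n), wt t R * fourier (restr R f) ∅|
      ≤ ∑ R : Finset (Fin n), |wt t R * fourier (restr R f) ∅| := Finset.abs_sum_le_sum_abs _ _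
    _ ≤ ∑ R : Finset (Fin n), wt t R := by
        refine Finset.sum_le_sum fun R _ => ?_
        rw [abs_mul, abs_of_nonneg (wt_nonneg ht0 ht1 R)]
        exact mul_le_of_le_one_right (wt_nonneg ht0 ht1 R)
          (abs_fourier_empty_le_one _ (isBoolean_restr R f hf))
    _ = 1 := sum_wt t

/-- The differential inequality of the bias polynomial of a Boolean function of degree at most
`d`: `(1 - t) |P'(t)| ≤ d (1 - P(t)^2)` for `t ∈ [0, 1]`. -/
theorem bias_ode {n d : ℕ} (f : (Fin n → Bool) → ℝ) (hf : IsBoolean f) (hd : DegLE f d)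
    (t : ℝ) (ht0 : 0 ≤ t) (ht1 : t ≤ 1) :
    (1 - t) * |(derivative (biasPoly f)).eval t| ≤ d * (1 - ((biasPoly f).eval t) ^ 2) := by
  have hw : ∀ R : Finset (Fin n), 0 ≤ wt t R := fun R => wt_nonneg ht0 ht1 R
  have hA : ∀ R : Finset (Fin n),
      |levelOne (restr R f)| ≤ d * (1 - (fourier (restr R f) ∅) ^ 2) := by
    intro R
    refine le_trans ?_ (sum_abs_fourier_singleton_le (restr R f) (isBoolean_restr R f hf)
      (degLE_restr R f hd))
    unfold levelOne
    exact Finset.abs_sum_le_sum_abs _ _
  have h1 : (1 - t) * |(derivative (biasPoly f)).eval t|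
      = |∑ R : Finset (Fin n), wt t R * levelOne (restr R f)| := by
    rw [sum_wt_levelOne, abs_mul, abs_of_nonneg (by linarith : (0 : ℝ) ≤ 1 - t)]
  rw [h1]
  have hmean : ∑ R : Finset (Fin n), wt t R * fourier (restr R f) ∅ = (biasPoly f).eval t :=
    sum_wt_mean f t
  have hsum : ∑ R : Finset (Fin n), wt t R = 1 := sum_wt t
  have hjensen : ((biasPoly f).eval t) ^ 2
      ≤ ∑ R : Finset (Fin n), wt t R * (fourier (restr R f) ∅) ^ 2 := by
    have h0 : 0 ≤ ∑ R : Finset (Fin n),
        wt t R * (fourier (restr R f) ∅ - (biasPoly f).eval t) ^ 2 :=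
      Finset.sum_nonneg fun R _ => mul_nonneg (hw R) (sq_nonneg _)
    have e : ∑ R : Finset (Fin n), wt t R * (fourier (restr R f) ∅ - (biasPoly f).eval t) ^ 2
        = ∑ R : Finset (Fin n), wt t R * (fourier (restr R f) ∅) ^ 2
          - 2 * (biasPoly f).eval t * ∑ R : Finset (Fin n), wt t R * fourier (restr R f) ∅
          + ((biasPoly f).eval t) ^ 2 * ∑ R : Finset (Fin n), wt t R := by
      rw [Finset.mul_sum, Finset.mul_sum, ← Finset.sum_sub_distrib, ← Finset.sum_add_distrib]
      refine Finset.sum_congr rfl fun R _ => by ring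
    rw [e, hmean, hsum] at h0
    nlinarith
  have hd0 : (0 : ℝ) ≤ d := Nat.cast_nonneg d
  calc |∑ R : Finset (Fin n), wt t R * levelOne (restr R f)|
      ≤ ∑ R : Finset (Fin n), |wt t R * levelOne (restr R f)| := Finset.abs_sum_le_sum_abs _ _
    _ = ∑ R : Finset (Fin n), wt t R * |levelOne (restr R f)| := by
        refine Finset.sum_congr rfl fun R _ => ?_
        rw [abs_mul, abs_of_nonneg (hw R)]
    _ ≤ ∑ R : Finset (Fin n), wt t R * (d * (1 - (fourier (restr R f) ∅) ^ 2)) :=
        Finset.sum_le_sum fun R _ => mul_le_mul_of_nonneg_left (hA R) (hw R)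
    _ = d * (∑ R : Finset (Fin n), wt t R
          - ∑ R : Finset (Fin n), wt t R * (fourier (restr R f) ∅) ^ 2) := by
        rw [← Finset.sum_sub_distrib, Finset.mul_sum]
        refine Finset.sum_congr rfl fun R _ => by ring
    _ ≤ d * (1 - ((biasPoly f).eval t) ^ 2) := by
        rw [hsum]
        nlinarith

end Vale.Agent.Lib.P047
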