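import Vale.Agent.Lib.P047.Upper.Numeric

/-!
# P047: the sharper form of the improved upper bound

With the sharp integration of the differential inequality and the exact interpolation weight of
the Chebyshev node nearest to the centre.
-/

namespace Vale.Agent.Lib.P047

open Finset Polynomial

/-- For odd `m ≥ 3` and `d ≤ m + 1`: `W^2 ≤ m^2 - 8 a / ((1 + a)^2 s^2)`,
`s = sin (π / (2 m))`, `a = (1 - s)^(2 d)`. -/
theorem levelOne_sq_le_strong {n d m : ℕ} (f : (Fin n → Bool) → ℝ) (hf : IsBoolean f)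
    (hd : DegLE f d) (hm : Odd m) (hm3 : 3 ≤ m) (hdm : d ≤ m + 1) :
    (levelOne f) ^ 2 ≤ (m : ℝ) ^ 2
      - 8 * (1 - Real.sin (Real.pi / (2 * m))) ^ (2 * d)
        / ((1 + (1 - Real.sin (Real.pi / (2 * m))) ^ (2 * d)) ^ 2
            * (Real.sin (Real.pi / (2 * m))) ^ 2) := by
  have hmR : (3 : ℝ) ≤ m := by exact_mod_cast hm3
  set s : ℝ := Real.sin (Real.pi / (2 * m)) with hs
  set a : ℝ := (1 - s) ^ (2 * d) with ha
  have hfd : IsBoolean (dual f) := isBoolean_dual f hf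
  have hdd : DegLE (dual f) d := degLE_dual f hd
  have hang0 : 0 < Real.pi / (2 * m) := by positivity
  have hang1 : Real.pi / (2 * m) ≤ Real.pi / 6 :=
    div_le_div_of_nonneg_left Real.pi_pos.le (by norm_num) (by linarith)
  have hs0 : 0 < s := Real.sin_pos_of_pos_of_lt_pi hang0 (by linarith [Real.pi_pos])
  have hsle : s ≤ Real.pi / (2 * m) := Real.sin_le hang0.le
  have hs1 : s < 1 := by linarith [Real.pi_lt_four]
  have ha0 : 0 ≤ a := pow_nonneg (by linarith) _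
  have ha1 : a ≤ 1 := pow_le_one₀ (by linarith) (by linarith)
  have hbd : ∀ x : ℝ, 0 ≤ x → x ≤ 1 → |(oddBias f).eval x| ≤ 1 := by
    intro x hx0 hx1
    rw [oddBias_eval]
    have h1 := abs_le.mp (bias_abs_le_one f hf x hx0 hx1)
    have h2 := abs_le.mp (bias_abs_le_one (dual f) hfd x hx0 hx1)
    rw [abs_le]
    constructor <;> linarith [h1.1, h1.2, h2.1, h2.2]
  have hode : ∀ (σ : ℝ), (σ = 1 ∨ σ = -1) → ∀ t : ℝ, 0 ≤ t → t < 1 →
      (1 - t) * (σ * (derivative (oddBias f)).eval t)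
        ≤ d * (1 - ((oddBias f).eval t) ^ 2) := by
    intro σ hσ t ht0 ht1
    have h1 := bias_ode f hf hd t ht0 ht1.le
    have h2 := bias_ode (dual f) hfd hdd t ht0 ht1.le
    rw [oddBias_derivative_eval, oddBias_eval]
    have ht : 0 ≤ 1 - t := by linarith
    have hd0 : (0 : ℝ) ≤ d := Nat.cast_nonneg d
    have e1 := abs_le.mp (le_refl |(derivative (biasPoly f)).eval t|)
    have e2 := abs_le.mp (le_refl |(derivative (biasPoly (dual f))).eval t|)
    have hsq : (1 / 2 * ((biasPoly f).eval t + (biasPoly (dual f)).eval t)) ^ 2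
        ≤ 1 / 2 * (((biasPoly f).eval t) ^ 2 + ((biasPoly (dual f)).eval t) ^ 2) := by
      nlinarith [sq_nonneg ((biasPoly f).eval t - (biasPoly (dual f)).eval t)]
    have hlin : (1 - t) * (σ * (1 / 2 * ((derivative (biasPoly f)).eval t
          + (derivative (biasPoly (dual f))).eval t)))
        ≤ 1 / 2 * ((1 - t) * |(derivative (biasPoly f)).eval t|
          + (1 - t) * |(derivative (biasPoly (dual f))).eval t|) := by
      rcases hσ with rfl | rfl <;> nlinarith [e1.1, e1.2, e2.1, e2.2]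
    nlinarith
  have hQ0 : (oddBias f).eval 0 = 0 := by
    rw [oddBias_eq]
    ring
  have u1 := Upper.ode_bound_tanh (oddBias f) d hQ0 (fun t ht0 ht1 => by
    have := hode 1 (Or.inl rfl) t ht0 ht1
    simpa using this) s hs0.le hs1
  have u2 := Upper.ode_bound_tanh (-(oddBias f)) d (by simp [hQ0]) (fun t ht0 ht1 => by
    have := hode (-1) (Or.inr rfl) t ht0 ht1
    simpa using this) s hs0.le hs1
  rw [eval_neg] at u2
  rw [← ha] at u1 u2
  have hnode : ((oddBias f).eval s) ^ 2 * (1 + a) ^ 2 ≤ (1 - a) ^ 2 := by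
    have h1 : |(oddBias f).eval s * (1 + a)| ≤ 1 - a := abs_le.mpr ⟨by linarith, u1⟩
    have h2 := sq_le_sq' (abs_le.mp h1).1 (abs_le.mp h1).2
    calc ((oddBias f).eval s) ^ 2 * (1 + a) ^ 2 = ((oddBias f).eval s * (1 + a)) ^ 2 := by ring
      _ ≤ (1 - a) ^ 2 := h2
  have hr := oddRed_natDegree f hd hm hdm
  have hch := Upper.cheb_center_bound_two m (by omega) (oddRed f) hr (fun x hx0 hx1 => by
    rw [← oddBias_eq]
    exact hbd x hx0 hx1)
  rw [← hs, ← oddBias_eq, oddRed_eval_zero] at hch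
  have hs2 : 0 < s ^ 2 := by positivity
  have h1a : 0 < (1 + a) ^ 2 := pow_pos (by linarith) 2
  have hfrac : 8 * a / ((1 + a) ^ 2 * s ^ 2)
      ≤ 2 * (1 - ((oddBias f).eval s) ^ 2) / s ^ 2 := by
    rw [div_le_div_iff₀ (mul_pos h1a hs2) hs2]
    have key : 4 * a ≤ (1 - ((oddBias f).eval s) ^ 2) * (1 + a) ^ 2 := by nlinarith
    nlinarith
  linarith

/-- A uniform lower bound for `8 a / (1 + a)^2` when `a ∈ [a₀, 1]`. -/
lemma eight_mul_div_mono {a a₀ : ℝ} (h0 : 0 ≤ a₀) (h : a₀ ≤ a) (h1 : a ≤ 1) :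
    8 * a₀ / (1 + a₀) ^ 2 ≤ 8 * a / (1 + a) ^ 2 := by
  have ha : 0 ≤ a := le_trans h0 h
  rw [div_le_div_iff₀ (pow_pos (by linarith) 2) (pow_pos (by linarith) 2)]
  have : 0 ≤ (a - a₀) * (1 - a * a₀) := mul_nonneg (by linarith) (by nlinarith)
  nlinarith

/-- The uniform sharp form: for `m ≥ 3` odd and `d ≤ m + 1` the level-one sum is at most
`(249/250) m`. -/
lemma levelOne_le_of_three_le_strong {n d m : ℕ} (f : (Fin n → Bool) → ℝ) (hf : IsBoolean f)
    (hd : DegLE f d) (hm : Odd m) (hm3 : 3 ≤ m) (hdm : d ≤ m + 1) :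
    levelOne f ≤ 249 / 250 * m := by
  have hmain := levelOne_sq_le_strong f hf hd hm hm3 hdm
  have hmR : (3 : ℝ) ≤ m := by exact_mod_cast hm3
  set s : ℝ := Real.sin (Real.pi / (2 * m)) with hs
  set a : ℝ := (1 - s) ^ (2 * d) with ha
  have hang0 : 0 < Real.pi / (2 * m) := by positivity
  have hang1 : Real.pi / (2 * m) ≤ Real.pi / 6 :=
    div_le_div_of_nonneg_left Real.pi_pos.le (by norm_num) (by linarith)
  have hs0 : 0 < s := Real.sin_pos_of_pos_of_lt_pi hang0 (by linarith [Real.pi_pos])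
  have hs1 : s ≤ 1 := Real.sin_le_one _
  have hsle : s ≤ Real.pi / (2 * m) := Real.sin_le hang0.le
  have ha1 : a ≤ 1 := pow_le_one₀ (by linarith) (by linarith)
  have ha0 : (265 / 100000 : ℝ) ≤ a := le_trans node_const_lower (pow_node_lower m d hm3 hdm)
  have hnum : (21 / 1000 : ℝ) ≤ 8 * a / (1 + a) ^ 2 := by
    refine le_trans ?_ (eight_mul_div_mono (by norm_num) ha0 ha1)
    norm_num
  have hpi := Real.pi_lt_d4
  have hpi0 := Real.pi_pos
  have hs2 : s ^ 2 ≤ (Real.pi / (2 * m)) ^ 2 := pow_le_pow_left₀ hs0.le hsle 2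
  have hm2 : 0 < (m : ℝ) ^ 2 := by positivity
  have hs2' : s ^ 2 * (m : ℝ) ^ 2 ≤ 2468 / 1000 := by
    have h1 : (Real.pi / (2 * m)) ^ 2 * (m : ℝ) ^ 2 = Real.pi ^ 2 / 4 := by
      field_simp
      ring
    have h2 : Real.pi ^ 2 ≤ 3.1416 ^ 2 := pow_le_pow_left₀ hpi0.le hpi.le 2
    nlinarith
  have hs2pos : 0 < s ^ 2 := by positivity
  have h1a : 0 < (1 + a) ^ 2 := pow_pos (by linarith) 2
  have hgain : 8 / 1000 * (m : ℝ) ^ 2 ≤ 8 * a / ((1 + a) ^ 2 * s ^ 2) := by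
    have e : 8 * a / ((1 + a) ^ 2 * s ^ 2) = 8 * a / (1 + a) ^ 2 / s ^ 2 := by
      rw [div_div]
    rw [e, le_div_iff₀ hs2pos]
    nlinarith
  have hsq : (levelOne f) ^ 2 ≤ (249 / 250 * (m : ℝ)) ^ 2 := by
    have : (levelOne f) ^ 2 ≤ (m : ℝ) ^ 2 - 8 / 1000 * (m : ℝ) ^ 2 := by linarith
    nlinarith [sq_nonneg (m : ℝ)]
  exact le_of_abs_le (abs_le_of_sq_le_sq hsq (by positivity))

end Vale.Agent.Lib.P047
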