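import Vale.Agent.Lib.P047.Upper.Large

/-!
# P047: the improved upper bound with explicit constants

`W ≤ (973/1000) d` for every `d ≥ 2`, and `W ≤ (47/50) d` for every `d ≥ 64`, where `W` is the
level-one sum of a Boolean function of degree at most `d`.
-/

namespace Vale.Agent.Lib.P047

open Finset

/-- The crude bound `W ≤ m` (for even `d` this is `W ≤ d - 1`). -/
lemma levelOne_le_m {n d m : ℕ} (f : (Fin n → Bool) → ℝ) (hf : IsBoolean f) (hd : DegLE f d)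
    (hd1 : 1 ≤ d) (hm : Odd m) (hdm : d ≤ m + 1) : levelOne f ≤ m := by
  have hmain := levelOne_sq_le f hf hd hd1 hm hdm
  have hm1 : 1 ≤ m := by
    obtain ⟨j, hj⟩ := hm
    omega
  have hmR : (1 : ℝ) ≤ m := by exact_mod_cast hm1
  set s : ℝ := Real.sin (Real.pi / (2 * m)) with hs
  set a : ℝ := (1 - s) ^ (2 * d) with ha
  have hang0 : 0 ≤ Real.pi / (2 * m) := by positivity
  have hang1 : Real.pi / (2 * m) ≤ Real.pi := by
    rw [div_le_iff₀ (by linarith)]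
    nlinarith [Real.pi_pos]
  have hs0 : 0 ≤ s := Real.sin_nonneg_of_nonneg_of_le_pi hang0 hang1
  have hs1 : s ≤ 1 := Real.sin_le_one _
  have ha0 : 0 ≤ a := pow_nonneg (by linarith) _
  have ha1 : a ≤ 1 := pow_le_one₀ (by linarith) (by linarith)
  have hpos : 0 ≤ a * (2 - a) / s ^ 2 := div_nonneg (mul_nonneg ha0 (by linarith)) (sq_nonneg _)
  have hsq : (levelOne f) ^ 2 ≤ (m : ℝ) ^ 2 := by linarith
  exact le_of_abs_le (abs_le_of_sq_le_sq hsq (by linarith))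

lemma sin_sq_mul_sq_le (m : ℕ) (hm : 3 ≤ m) :
    Real.sin (Real.pi / (2 * m)) ^ 2 * (m : ℝ) ^ 2 ≤ 24675 / 10000 := by
  have hmR : (3 : ℝ) ≤ m := by exact_mod_cast hm
  have hang0 : 0 < Real.pi / (2 * m) := by positivity
  have hang1 : Real.pi / (2 * m) ≤ Real.pi / 6 :=
    div_le_div_of_nonneg_left Real.pi_pos.le (by norm_num) (by linarith)
  have hs0 : 0 < Real.sin (Real.pi / (2 * m)) :=
    Real.sin_pos_of_pos_of_lt_pi hang0 (by linarith [Real.pi_pos])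
  have hsle : Real.sin (Real.pi / (2 * m)) ≤ Real.pi / (2 * m) := Real.sin_le hang0.le
  have hs2 : Real.sin (Real.pi / (2 * m)) ^ 2 ≤ (Real.pi / (2 * m)) ^ 2 :=
    pow_le_pow_left₀ hs0.le hsle 2
  have hm2 : 0 < (m : ℝ) ^ 2 := by positivity
  have h1 : (Real.pi / (2 * m)) ^ 2 * (m : ℝ) ^ 2 = Real.pi ^ 2 / 4 := by
    field_simp
    ring
  have h2 : Real.pi ^ 2 ≤ 3.1416 ^ 2 := pow_le_pow_left₀ Real.pi_pos.le Real.pi_lt_d4.le 2
  nlinarith

/-- The general numerical step: a lower bound `a₀` for `(1 - s)^(2d)` and an upper bound `B` for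
`s^2 m^2` give `W ≤ c m`. -/
lemma levelOne_le_of_anchor {n d m : ℕ} (f : (Fin n → Bool) → ℝ) (hf : IsBoolean f)
    (hd : DegLE f d) (hm : Odd m) (hm3 : 3 ≤ m) (hdm : d ≤ m + 1) (a₀ B g c : ℝ)
    (ha₀ : 0 ≤ a₀) (hle : a₀ ≤ (1 - Real.sin (Real.pi / (2 * m))) ^ (2 * d))
    (hB : Real.sin (Real.pi / (2 * m)) ^ 2 * (m : ℝ) ^ 2 ≤ B)
    (hg : g * B ≤ 8 * a₀ / (1 + a₀) ^ 2) (hg0 : 0 ≤ g) (hc0 : 0 ≤ c) (hc : 1 - g ≤ c ^ 2) :
    levelOne f ≤ c * m := by
  have hmain := levelOne_sq_le_strong f hf hd hm hm3 hdm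
  have hmR : (3 : ℝ) ≤ m := by exact_mod_cast hm3
  set s : ℝ := Real.sin (Real.pi / (2 * m)) with hs
  set a : ℝ := (1 - s) ^ (2 * d) with ha
  have hang0 : 0 < Real.pi / (2 * m) := by positivity
  have hang1 : Real.pi / (2 * m) ≤ Real.pi / 6 :=
    div_le_div_of_nonneg_left Real.pi_pos.le (by norm_num) (by linarith)
  have hs0 : 0 < s := Real.sin_pos_of_pos_of_lt_pi hang0 (by linarith [Real.pi_pos])
  have hs1 : s ≤ 1 := Real.sin_le_one _
  have ha1 : a ≤ 1 := pow_le_one₀ (by linarith) (by linarith)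
  have hnum : g * B ≤ 8 * a / (1 + a) ^ 2 := le_trans hg (eight_mul_div_mono ha₀ hle ha1)
  have hm2 : 0 < (m : ℝ) ^ 2 := by positivity
  have hs2pos : 0 < s ^ 2 := by positivity
  have hgain : g * (m : ℝ) ^ 2 ≤ 8 * a / ((1 + a) ^ 2 * s ^ 2) := by
    have e : 8 * a / ((1 + a) ^ 2 * s ^ 2) = 8 * a / (1 + a) ^ 2 / s ^ 2 := by
      rw [div_div]
    rw [e, le_div_iff₀ hs2pos]
    have h1 : g * (m : ℝ) ^ 2 * s ^ 2 = g * (s ^ 2 * (m : ℝ) ^ 2) := by ring
    rw [h1]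
    exact le_trans (mul_le_mul_of_nonneg_left hB hg0) hnum
  have hsq : (levelOne f) ^ 2 ≤ (c * (m : ℝ)) ^ 2 := by
    have h1 : (levelOne f) ^ 2 ≤ (m : ℝ) ^ 2 - g * (m : ℝ) ^ 2 := by linarith
    have h2 : (c * (m : ℝ)) ^ 2 = c ^ 2 * (m : ℝ) ^ 2 := by ring
    rw [h2]
    nlinarith
  exact le_of_abs_le (abs_le_of_sq_le_sq hsq (by positivity))

lemma node_const_seven : (171 / 10000 : ℝ) ≤ (1 - Real.pi / (2 * (7 : ℕ))) ^ (2 * 7 + 2) := by
  have hpi := Real.pi_lt_d4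
  have h : (0.7756 : ℝ) ≤ 1 - Real.pi / (2 * (7 : ℕ)) := by
    push_cast
    linarith
  calc (171 / 10000 : ℝ) ≤ (0.7756 : ℝ) ^ (2 * 7 + 2) := by norm_num
    _ ≤ (1 - Real.pi / (2 * (7 : ℕ))) ^ (2 * 7 + 2) := pow_le_pow_left₀ (by norm_num) h _

/-- Odd `m ≥ 7`, `d ≤ m + 1`: `W ≤ (973/1000) m`. -/
lemma levelOne_le_of_seven_le {n d m : ℕ} (f : (Fin n → Bool) → ℝ) (hf : IsBoolean f)
    (hd : DegLE f d) (hm : Odd m) (hm7 : 7 ≤ m) (hdm : d ≤ m + 1) :
    levelOne f ≤ 973 / 1000 * m :=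
  levelOne_le_of_anchor f hf hd hm (by omega) hdm (171 / 10000) (24675 / 10000) (535 / 10000)
    (973 / 1000) (by norm_num)
    (le_trans node_const_seven (pow_node_lower_gen 7 m d (by norm_num) hm7 hdm))
    (sin_sq_mul_sq_le m (by omega)) (by norm_num) (by norm_num) (by norm_num) (by norm_num)

/-- Odd `m ≥ 63`, `d ≤ m + 1`: `W ≤ (47/50) m`. -/
lemma levelOne_le_of_sixtythree_le {n d m : ℕ} (f : (Fin n → Bool) → ℝ) (hf : IsBoolean f)
    (hd : DegLE f d) (hm : Odd m) (hm63 : 63 ≤ m) (hdm : d ≤ m + 1) :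
    levelOne f ≤ 47 / 50 * m :=
  levelOne_le_of_anchor f hf hd hm (by omega) hdm (391 / 10000) (24675 / 10000) (1174 / 10000)
    (47 / 50) (by norm_num)
    (le_trans node_const_lower_large (pow_node_lower_gen 63 m d (by norm_num) hm63 hdm))
    (sin_sq_mul_sq_le m (by omega)) (by norm_num) (by norm_num) (by norm_num) (by norm_num)

/-- Degree three: `W ≤ (973/1000) * 3`. -/
lemma levelOne_le_three {n : ℕ} (f : (Fin n → Bool) → ℝ) (hf : IsBoolean f) (hd : DegLE f 3) :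
    levelOne f ≤ 973 / 1000 * ((3 : ℕ) : ℝ) := by
  have hsin : Real.sin (Real.pi / (2 * ((3 : ℕ) : ℝ))) = 1 / 2 := by
    have h2 : Real.pi / (2 * ((3 : ℕ) : ℝ)) = Real.pi / 6 := by
      push_cast
      ring
    rw [h2, Real.sin_pi_div_six]
  refine levelOne_le_of_anchor f hf hd (by decide) (le_refl 3) (by norm_num) (1 / 64) (9 / 4)
    (538 / 10000) (973 / 1000) (by norm_num) ?_ ?_ (by norm_num) (by norm_num) (by norm_num)
    (by norm_num)
  · rw [hsin]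
    norm_num
  · rw [hsin]
    norm_num

/-- Degree five: `W ≤ (973/1000) * 5`. -/
lemma levelOne_le_five {n : ℕ} (f : (Fin n → Bool) → ℝ) (hf : IsBoolean f) (hd : DegLE f 5) :
    levelOne f ≤ 973 / 1000 * ((5 : ℕ) : ℝ) := by
  have hang0 : 0 ≤ Real.pi / (2 * ((5 : ℕ) : ℝ)) := by positivity
  have hsle : Real.sin (Real.pi / (2 * ((5 : ℕ) : ℝ))) ≤ Real.pi / (2 * ((5 : ℕ) : ℝ)) :=
    Real.sin_le hang0
  have hpi := Real.pi_lt_d4
  have hbase : (0.68584 : ℝ) ≤ 1 - Real.sin (Real.pi / (2 * ((5 : ℕ) : ℝ))) := by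
    have : Real.pi / (2 * ((5 : ℕ) : ℝ)) ≤ 0.31416 := by
      push_cast
      linarith
    linarith
  refine levelOne_le_of_anchor f hf hd (by decide) (by norm_num) (by norm_num) (23 / 1000)
    (24675 / 10000) (712 / 10000) (973 / 1000) (by norm_num) ?_ (sin_sq_mul_sq_le 5 (by norm_num))
    (by norm_num) (by norm_num) (by norm_num) (by norm_num)
  calc (23 / 1000 : ℝ) ≤ (0.68584 : ℝ) ^ (2 * 5) := by norm_num
    _ ≤ (1 - Real.sin (Real.pi / (2 * ((5 : ℕ) : ℝ)))) ^ (2 * 5) :=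
        pow_le_pow_left₀ (by norm_num) hbase _

/-- The level-one sum of a Boolean function of degree at most `d ≥ 2` is at most
`(973/1000) d`. -/
theorem levelOne_le_973 {n d : ℕ} (f : (Fin n → Bool) → ℝ) (hf : IsBoolean f)
    (hd : DegLE f d) (hd2 : 2 ≤ d) : levelOne f ≤ 973 / 1000 * d := by
  rcases Nat.lt_or_ge d 7 with hlt | hge
  · have hcases : d = 2 ∨ d = 3 ∨ d = 4 ∨ d = 5 ∨ d = 6 := by omega
    rcases hcases with rfl | rfl | rfl | rfl | rfl
    · have h := levelOne_le_m (m := 1) f hf hd (by norm_num) (by decide) (by norm_num)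
      push_cast at h ⊢
      linarith
    · exact levelOne_le_three f hf hd
    · have h := levelOne_le_m (m := 3) f hf hd (by norm_num) (by decide) (by norm_num)
      push_cast at h ⊢
      linarith
    · exact levelOne_le_five f hf hd
    · have h := levelOne_le_m (m := 5) f hf hd (by norm_num) (by decide) (by norm_num)
      push_cast at h ⊢
      linarith
  · obtain ⟨m, hm, hmd, hdm, hm7⟩ : ∃ m : ℕ, Odd m ∧ m ≤ d ∧ d ≤ m + 1 ∧ 7 ≤ m := by
      rcases Nat.even_or_odd d with he | ho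
      · obtain ⟨k, hk⟩ := he
        exact ⟨d - 1, ⟨k - 1, by omega⟩, by omega, by omega, by omega⟩
      · exact ⟨d, ho, le_refl d, by omega, hge⟩
    have h := levelOne_le_of_seven_le f hf hd hm hm7 hdm
    have hmdR : (m : ℝ) ≤ d := by exact_mod_cast hmd
    linarith

/-- The level-one sum of a Boolean function of degree at most `d ≥ 64` is at most
`(47/50) d`. -/
theorem levelOne_le_large {n d : ℕ} (f : (Fin n → Bool) → ℝ) (hf : IsBoolean f)
    (hd : DegLE f d) (hd64 : 64 ≤ d) : levelOne f ≤ 47 / 50 * d := by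
  obtain ⟨m, hm, hmd, hdm, hm63⟩ : ∃ m : ℕ, Odd m ∧ m ≤ d ∧ d ≤ m + 1 ∧ 63 ≤ m := by
    rcases Nat.even_or_odd d with he | ho
    · obtain ⟨k, hk⟩ := he
      exact ⟨d - 1, ⟨k - 1, by omega⟩, by omega, by omega, by omega⟩
    · exact ⟨d, ho, le_refl d, by omega, by omega⟩
  have h := levelOne_le_of_sixtythree_le f hf hd hm hm63 hdm
  have hmdR : (m : ℝ) ≤ d := by exact_mod_cast hmd
  linarith

end Vale.Agent.Lib.P047
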